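import Vale.Agent.P261Z.S.Cx

/-!
# P261Z, block S: configuration functors, representability, local statements

* `FA.Dom`: retracts on cohomology;
* `CF p k`: configuration functors, `CF.fa` the filtered complex of natural functions;
* `CFO X`: configuration functors over a base, `CFO.loc`, `CFO.LAc`;
* `Sys.cf`, `Sys.bc`, `Sys.loc`, `Sys.mv`, `Sys.LAc`;
* `PF.FRep`, `PF.Cut`, `Sys.Rp`: representability; `FLoc`: covers of test objects.
-/

noncomputable section

namespace P261

universe u v

namespace FA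

variable {p : ℕ} {k : Type} [Field k]

/-- `A` is a retract of `B` on the cohomology of every step; the retraction is equivariant -/
structure Dom (A : FA.{u} p k) (B : FA.{v} p k) where
  /-- the inclusion -/
  i : Cs.Hom A.C B.C
  mem : ∀ β n, ∀ x ∈ (A.F β).S n, i.app n x ∈ (B.F β).S n
  /-- the retraction -/
  r : B.Map A
  ri : ∀ β n, ∀ x ∈ (A.F β).S n, A.C.d n x = 0 → r.f.app n (i.app n x) - x ∈ (A.F β).bd n

/-- cocycles are boundaries in every step -/
def Ctr (A : FA.{u} p k) : Prop := ∀ (n : ℕ) (β : ℝ), A.Nul n β β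

end FA

variable {p : ℕ} [Fact p.Prime] {k : Type} [Field k]

namespace PF

/-- natural maps -/
structure Tr (X Y : PF p k) : Type 1 where
  /-- the map -/
  f : ∀ {T : FP p k}, X.obj T → Y.obj T
  map : ∀ {T T' : FP p k} (φ : T.Hom T') (x : X.obj T), f (X.map φ x) = Y.map φ (f x)

/-- products -/
def prod (X Y : PF p k) : PF p k where
  obj T := X.obj T × Y.obj T
  map φ z := (X.map φ z.1, Y.map φ z.2)
  map_id T z := Prod.ext (X.map_id T z.1) (Y.map_id T z.2)
  map_comp g f z := Prod.ext (X.map_comp g f z.1) (Y.map_comp g f z.2)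

/-- the first projection -/
def fst (X Y : PF p k) : (X.prod Y).Tr X := ⟨fun z => z.1, fun _ _ => rfl⟩

/-- the second projection -/
def snd (X Y : PF p k) : (X.prod Y).Tr Y := ⟨fun z => z.2, fun _ _ => rfl⟩

/-- the map defined by a point -/
def pt (X : PF p k) {T₀ : FP p k} (x : X.obj T₀) : (yo T₀).Tr X :=
  ⟨fun φ => X.map φ x, fun g f => X.map_comp g f x⟩

/-- subfunctors -/
def sub (X : PF p k) (Q : Col X) : PF p k where
  obj T := {x : X.obj T // Q.P x}
  map φ x := ⟨X.map φ x.1, Q.map φ x.2⟩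
  map_id T x := Subtype.ext (X.map_id T x.1)
  map_comp g f x := Subtype.ext (X.map_comp g f x.1)

end PF

variable (p k) in
/-- marked units of weight `-1` -/
def Gm : PF p k where
  obj T := {w : T.Kˣ // (w : T.K) ∈ T.F.F (-1) ∧ ((w⁻¹ : T.Kˣ) : T.K) ∈ T.F.F 1}
  map φ w := ⟨Units.map φ.r.toMonoidHom w.1, φ.mem _ _ w.2.1, φ.mem _ _ w.2.2⟩
  map_id _ _ := rfl
  map_comp _ _ _ := rfl

/-- configuration functors; `Z n` is the functor of configurations on `n + 1` points -/
structure CF (p : ℕ) [Fact p.Prime] (k : Type) [Field k] : Type 1 where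
  /-- the configurations -/
  Z : ℕ → PF p k
  /-- restriction -/
  res : ∀ {m n : ℕ} {T : FP p k}, (Fin (m + 1) → Fin (n + 1)) → (Z n).obj T → (Z m).obj T
  res_id : ∀ {n : ℕ} {T : FP p k} (z : (Z n).obj T), res id z = z
  res_comp : ∀ {l m n : ℕ} {T : FP p k} (f : Fin (l + 1) → Fin (m + 1))
    (g : Fin (m + 1) → Fin (n + 1)) (z : (Z n).obj T), res (g ∘ f) z = res f (res g z)
  res_map : ∀ {m n : ℕ} {T T' : FP p k} (φ : T.Hom T') (f : Fin (m + 1) → Fin (n + 1))
    (z : (Z n).obj T), res f ((Z n).map φ z) = (Z m).map φ (res f z)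
  /-- the configurations on which cochains vanish -/
  Full : ∀ {n : ℕ} {T : FP p k}, (Z n).obj T → Prop
  full_res : ∀ {m n : ℕ} {T : FP p k} (f : Fin (m + 1) → Fin (n + 1)) {z : (Z n).obj T},
    Full z → Full (res f z)
  full_map : ∀ {n : ℕ} {T T' : FP p k} (φ : T.Hom T') (z : (Z n).obj T),
    Full ((Z n).map φ z) ↔ Full z

namespace CF

variable (C : CF p k)

/-- natural functions which vanish on the full configurations -/
def Fn (n : ℕ) : Submodule k (∀ T : FP p k, (C.Z n).obj T → T.K) where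
  carrier := {g | (∀ (T T' : FP p k) (φ : T.Hom T') (z : (C.Z n).obj T),
    g T' ((C.Z n).map φ z) = φ.f (g T z)) ∧ ∀ T (z : (C.Z n).obj T), C.Full z → g T z = 0}
  add_mem' := fun {a b} ha hb => ⟨fun T T' φ z => by
    simp only [Pi.add_apply, map_add, ha.1 T T' φ z, hb.1 T T' φ z], fun T z hz => by
    simp only [Pi.add_apply, ha.2 T z hz, hb.2 T z hz, add_zero]⟩
  zero_mem' := ⟨fun T T' φ z => by simp only [Pi.zero_apply, map_zero], fun _ _ _ => rfl⟩
  smul_mem' := fun c a ha => ⟨fun T T' φ z => by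
    simp only [Pi.smul_apply, map_smul, ha.1 T T' φ z], fun T z hz => by
    simp only [Pi.smul_apply, ha.2 T z hz, smul_zero]⟩

/-- the complex of natural functions -/
@[reducible] def cos : Cs.Cos.{1} k where
  X n := C.Fn n
  map f :=
    { toFun := fun g => ⟨fun T z => g.1 T (C.res f z), fun T T' φ z => by
        show g.1 T' _ = φ.f (g.1 T _)
        rw [C.res_map]
        exact g.2.1 T T' φ _, fun T z hz => g.2.2 T _ (C.full_res f hz)⟩
      map_add' := fun _ _ => rfl
      map_smul' := fun _ _ => rfl }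
  map_id n g := Subtype.ext (funext fun T => funext fun z => congrArg (g.1 T) (C.res_id z))
  map_comp f f' g :=
    Subtype.ext (funext fun T => funext fun z => congrArg (g.1 T) (C.res_comp f f' z))

/-- the functions with values in the step `b` -/
def step (b : ℝ) : Cs.Sub C.cos where
  S n :=
    { carrier := {g | ∀ T z, g.1 T z ∈ T.F.F b}
      add_mem' := fun {a c} ha hc T z => (T.F.F b).add_mem (ha T z) (hc T z)
      zero_mem' := fun T _ => (T.F.F b).zero_mem
      smul_mem' := fun c a ha T z => by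
        show c • a.1 T z ∈ _
        rw [Algebra.smul_def]
        exact T.F.mul_le (T.k0 c) (ha T z) (zero_add b).le }
  stab _ _ hx T _ := hx T _

theorem mem_step {b : ℝ} {n : ℕ} {g : C.Fn n} :
    g ∈ (C.step b).S n ↔ ∀ T z, g.1 T z ∈ T.F.F b := Iff.rfl

/-- the configurations which are not full -/
def nf (n : ℕ) : PF p k := (C.Z n).sub ⟨fun z => ¬C.Full z, fun φ _ h h' => h ((C.full_map φ _).1 h')⟩

/-- maps of configuration functors -/
structure Map (C C' : CF p k) : Type 1 where
  /-- the map -/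
  f : ∀ {n : ℕ} {T : FP p k}, (C.Z n).obj T → (C'.Z n).obj T
  map : ∀ {n : ℕ} {T T' : FP p k} (φ : T.Hom T') (z : (C.Z n).obj T),
    f ((C.Z n).map φ z) = (C'.Z n).map φ (f z)
  res : ∀ {m n : ℕ} {T : FP p k} (g : Fin (m + 1) → Fin (n + 1)) (z : (C.Z n).obj T),
    f (C.res g z) = C'.res g (f z)
  full : ∀ {n : ℕ} {T : FP p k} (z : (C.Z n).obj T), C.Full z → C'.Full (f z)

/-- the identity -/
def Map.id (C : CF p k) : C.Map C := ⟨fun z => z, fun _ _ => rfl, fun _ _ => rfl, fun _ h => h⟩

/-- composition -/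
def Map.comp {C C' C'' : CF p k} (G : C'.Map C'') (F : C.Map C') : C.Map C'' :=
  ⟨fun z => G.f (F.f z), fun φ z => by rw [F.map, G.map], fun g z => by rw [F.res, G.res],
    fun z h => G.full _ (F.full z h)⟩

/-- pull back of functions -/
def Map.pull {C C' : CF p k} (F : C.Map C') : Cs.Hom C'.cos C.cos where
  app n :=
    { toFun := fun g => ⟨fun T z => g.1 T (F.f z), fun T T' φ z => by
        show g.1 T' _ = φ.f (g.1 T _)
        rw [F.map]
        exact g.2.1 T T' φ _, fun T z hz => g.2.2 T _ (F.full z hz)⟩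
      map_add' := fun _ _ => rfl
      map_smul' := fun _ _ => rfl }
  nat f g := Subtype.ext (funext fun T => funext fun z => congrArg (g.1 T) (F.res f z).symm)

theorem Map.pull_apply {C C' : CF p k} (F : C.Map C') (n : ℕ) (g : C'.Fn n) (T : FP p k)
    (z : (C.Z n).obj T) : (F.pull.app n g).1 T z = g.1 T (F.f z) := rfl

/-- commuting operators -/
structure Act (C : CF p k) : Type 1 where
  /-- the operators -/
  e : ℕ → C.Map C
  one : ∀ (n : ℕ) (T : FP p k) (z : (C.Z n).obj T), (e 1).f z = z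
  mul : ∀ s t, s % p = 1 → t % p = 1 → ∀ (n : ℕ) (T : FP p k) (z : (C.Z n).obj T),
    (e (s * t)).f z = (e t).f ((e s).f z)

/-- the trivial operators -/
def Act.triv (C : CF p k) : C.Act := ⟨fun _ => Map.id C, fun _ _ _ => rfl, fun _ _ _ _ _ _ _ => rfl⟩

/-- the filtered complex with operators -/
@[reducible] def fa (a : C.Act) : FA.{1} p k where
  C := C.cos
  F := C.step
  mono h _ _ hx T z := T.F.le (hx T z) h
  act s := (a.e s).pull
  act_F _ _ _ _ hx T _ := hx T _
  act_one n x := Subtype.ext (funext fun T => funext fun z => congrArg (x.1 T) (a.one n T z))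
  act_mul s t hs ht n x :=
    Subtype.ext (funext fun T => funext fun z => congrArg (x.1 T) (a.mul s t hs ht n T z))

/-- almost acyclic -/
def AAc : Prop := (C.fa (Act.triv C)).AAc

/-- acyclic in every step -/
def Ctr : Prop := (C.fa (Act.triv C)).Ctr

theorem aac_iff (a : C.Act) : (C.fa a).AAc ↔ C.AAc := Iff.rfl

end CF

/-- configuration functors over a base -/
structure CFO (X : PF p k) : Type 1 extends CF p k where
  /-- the base point -/
  π : ∀ {n : ℕ} {T : FP p k}, (Z n).obj T → X.obj T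
  π_map : ∀ {n : ℕ} {T T' : FP p k} (φ : T.Hom T') (z : (Z n).obj T),
    π ((Z n).map φ z) = X.map φ (π z)
  π_res : ∀ {m n : ℕ} {T : FP p k} (f : Fin (m + 1) → Fin (n + 1)) (z : (Z n).obj T),
    π (res f z) = π z

namespace CFO

variable {X : PF p k} (C : CFO X)

/-- base change -/
def bc {Y : PF p k} (t : Y.Tr X) : CFO Y where
  Z n := (Y.prod (C.Z n)).sub ⟨fun z => C.π z.2 = t.f z.1, fun φ z h => by
    show C.π ((C.Z n).map φ z.2) = t.f (Y.map φ z.1)
    rw [C.π_map, t.map, h]⟩
  res f z := ⟨(z.1.1, C.res f z.1.2), (C.π_res f _).trans z.2⟩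
  res_id z := Subtype.ext (Prod.ext rfl (C.res_id _))
  res_comp f g z := Subtype.ext (Prod.ext rfl (C.res_comp f g _))
  res_map φ f z := Subtype.ext (Prod.ext rfl (C.res_map φ f _))
  Full z := C.Full z.1.2
  full_res f _ h := C.full_res f h
  full_map φ z := C.full_map φ z.1.2
  π z := z.1.1
  π_map _ _ := rfl
  π_res _ _ := rfl

/-- the configurations over a point -/
def loc (T₀ : FP p k) (x : X.obj T₀) : CFO (PF.yo T₀) := C.bc (X.pt x)

/-- almost acyclic over every test object over `T₀` -/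
def LAc (T₀ : FP p k) (x : X.obj T₀) : Prop :=
  ∀ (T : FP p k) (φ : T₀.Hom T), (C.loc T (X.map φ x)).toCF.AAc

end CFO

namespace Sys

variable (S : Sys p k) {κ : Type} (P : κ → Col S.V) (md : κ → Mode)

/-- the configuration functor of a system -/
def cfo : CFO S.X where
  Z n := S.conf P md (n + 1)
  res f z := z.res f
  res_id _ := rfl
  res_comp _ _ _ := rfl
  res_map _ _ _ := rfl
  Full z := z.Full
  full_res f _ h := h.res f
  full_map φ z := by
    refine exists_congr fun c => and_congr_right fun _ => forall_congr' fun i => ?_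
    show ((z.w c i).map _).isSome ↔ _
    rw [Option.isSome_map]
  π z := z.x
  π_map _ _ := rfl
  π_res _ _ := rfl

/-- the configuration functor of a system -/
abbrev cf : CF p k := (S.cfo P md).toCF

theorem fn_eq (n : ℕ) : (S.cf P md).Fn n = S.Fn P md (n + 1) := rfl

/-- base change -/
def bc {Y : PF p k} (t : Y.Tr S.X) : Sys p k where
  X := Y
  V := S.V
  ok1 y v := S.ok1 (t.f y) v
  ok2 := S.ok2
  ok1_map φ y v h := by
    rw [t.map]
    exact S.ok1_map φ h
  ok2_map := S.ok2_map

/-- the system over a point of the base -/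
def loc (T₀ : FP p k) (x : S.X.obj T₀) : Sys p k := S.bc (S.X.pt x)

/-- almost acyclic over every test object over `T₀` -/
def LAc (T₀ : FP p k) (x : S.X.obj T₀) : Prop :=
  ∀ (T : FP p k) (φ : T₀.Hom T), (S.loc T (S.X.map φ x)).AAc P md

/-- only the directions in `D` are kept -/
def keep (D : κ → Prop) [DecidablePred D] : κ → Mode := fun c => if D c then md c else .off

/-- the directions in `D` are removed -/
def drop (D : κ → Prop) [DecidablePred D] : κ → Mode := fun c => if D c then .off else md c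

/-- the system over the configurations on `m` points -/
def mv (m : ℕ) : Sys p k where
  X := S.conf P md m
  V := S.V
  ok1 z v := S.ok1 z.x v ∧ ∀ c i u, z.w c i = some u → S.ok2 u v ∧ S.ok2 v u
  ok2 := S.ok2
  ok1_map φ z v h := ⟨S.ok1_map φ h.1, fun c i u hu => by
    obtain ⟨u', hu', rfl⟩ := Option.map_eq_some_iff.1 hu
    exact ⟨S.ok2_map φ (h.2 c i u' hu').1, S.ok2_map φ (h.2 c i u' hu').2⟩⟩
  ok2_map := S.ok2_map

end Sys

/-- the map of configuration functors -/
def CMap.toMap {S S' : Sys p k} {κ κ' : Type} {P : κ → Col S.V} {md : κ → Mode}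
    {P' : κ' → Col S'.V} {md' : κ' → Mode} (F : CMap S S' P md P' md') :
    (S.cf P md).Map (S'.cf P' md') :=
  ⟨F.f, F.map, F.res, F.full⟩

namespace Sys

variable {S : Sys p k} (a : S.Act) {κ : Type} (P : κ → Col S.V) (md : κ → Mode)

/-- the operators on the configurations -/
def Act.cf (h : ∀ c, a.Stab (P c)) : (S.cf P md).Act where
  e s := ((a.e s).cmap P md fun c => h c s).toMap
  one _ T z := Conf.ext rfl (funext fun c => funext fun i => by
    show (z.w c i).map _ = _
    rw [show (a.e 1).f = id from funext (a.one T), Option.map_id, id])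
  mul s t hs ht _ T z := Conf.ext rfl (funext fun c => funext fun i => by
    show (z.w c i).map _ = ((z.w c i).map _).map _
    rw [Option.map_map]
    exact congrArg (fun g => Option.map g (z.w c i)) (funext (a.mul s t hs ht T)))

theorem fa_eq (h : ∀ c, a.Stab (P c)) : S.fa a P md h = (S.cf P md).fa (a.cf P md h) := rfl

theorem aac_cf : S.AAc P md ↔ (S.cf P md).AAc := Iff.rfl

end Sys

/-! ### representability -/

namespace PF

/-- natural functions -/
structure Nf (X : PF p k) : Type 1 where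
  /-- the function -/
  f : ∀ {T : FP p k}, X.obj T → T.K
  map : ∀ {T T' : FP p k} (φ : T.Hom T') (x : X.obj T), f (X.map φ x) = φ.f (f x)

/-- a family of universal points with exhaustive filtrations -/
structure MRep (X : PF p k) (ι : Type) : Type 1 where
  /-- the universal test objects -/
  U : ι → FP p k
  /-- the universal points -/
  u : ∀ i, X.obj (U i)
  exh : ∀ i, (U i).F.Exh
  lift : ∀ (T : FP p k) (x : X.obj T), ∃! a : Σ i, (U i).Hom T, X.map a.2 (u a.1) = x

/-- finite sums of representable functors -/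
def FRep (X : PF p k) : Prop := ∃ ι : Type, Finite ι ∧ Nonempty (X.MRep ι)

/-- conditions which do not depend on the test object -/
def Disc (X : PF p k) (D : ∀ {T : FP p k}, X.obj T → Prop) : Prop :=
  ∀ (T T' : FP p k) (φ : T.Hom T') (x : X.obj T), D (X.map φ x) ↔ D x

/-- conditions given by a discrete condition, bounds and equations -/
def Cut (X : PF p k) (Q : ∀ {T : FP p k}, X.obj T → Prop) : Prop :=
  ∃ (D : ∀ {T : FP p k}, X.obj T → Prop) (J J' : Type) (g : J → X.Nf) (t : J → ℝ) (e : J' → X.Nf),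
    X.Disc D ∧ ∀ (T : FP p k) (x : X.obj T),
      Q x ↔ D x ∧ (∀ j, (g j).f x ∈ T.F.F (t j)) ∧ ∀ j, (e j).f x = 0

variable (p k) in
/-- affine spaces -/
def free (ι : Type) : PF p k where
  obj T := ι → T.K
  map φ y i := φ.f (y i)
  map_id _ _ := rfl
  map_comp _ _ _ := rfl

end PF

/-- the data of a system are representable -/
structure Sys.Rp (S : Sys p k) {κ : Type} (P : κ → Col S.V) : Prop where
  fin : Finite κ
  base : S.X.FRep
  col : ∀ c, (S.V.sub (P c)).FRep
  ok1 : ∀ c, (S.X.prod (S.V.sub (P c))).Cut fun z => S.ok1 z.1 z.2.1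
  ok2 : ∀ c c', ((S.V.sub (P c)).prod (S.V.sub (P c'))).Cut fun z => S.ok2 z.1.1 z.2.1

/-! ### covers -/

open scoped TensorProduct

/-- ring maps from an algebra over the step zero of `T` to the step zero of `T'` -/
structure FP.Over {T T' : FP p k} (f : T.Hom T') (D : Type) [CommRing D] [Algebra T.F.zero D] where
  /-- the map -/
  ψ : D →+* T'.K
  mem : ∀ d, ψ d ∈ T'.F.F 0
  alg : ∀ c : T.F.zero, ψ (algebraMap T.F.zero D c) = f.f c

/-- `P` holds after finitely many covers -/
inductive FLoc : (T : FP p k) → ((T' : FP p k) → T.Hom T' → Prop) → Prop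
  | here {T : FP p k} {P : (T' : FP p k) → T.Hom T' → Prop} : P T (.id T) → FLoc T P
  | triv {T : FP p k} {P : (T' : FP p k) → T.Hom T' → Prop} : Subsingleton T.K → FLoc T P
  | pure {T : FP p k} {P : (T' : FP p k) → T.Hom T' → Prop} (D : Type) [CommRing D]
      [Algebra T.F.zero D]
      (hD : ∀ (M : Type) [AddCommGroup M] [Module T.F.zero M] (x : M),
        (1 : D) ⊗ₜ[T.F.zero] x = 0 → x = 0) :
      (∀ (T' : FP p k) (f : T.Hom T'), T'.F.Exh → FP.Over f D →
        FLoc T' fun T'' g => P T'' (g.comp f)) → FLoc T P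
  | bl {T : FP p k} {P : (T' : FP p k) → T.Hom T' → Prop} (a b : T.K) (ha : a ∈ T.F.F 0)
      (hb : b ∈ T.F.F 0) :
      (∀ (T' : FP p k) (f : T.Hom T'), T'.F.Exh →
        (∃ t ∈ T'.F.F 0, f.f a = f.f b * t ∨ f.f b = f.f a * t) →
        FLoc T' fun T'' g => P T'' (g.comp f)) → FLoc T P
  | iso {T : FP p k} {P : (T' : FP p k) → T.Hom T' → Prop} (ι : Type) [Finite ι]
      (g : ι → T.F.zero) (D : Type) [CommRing D] [Algebra T.F.zero D] [Pf p D]
      (hs : ∀ d : D, ∃ c : T.F.zero, d - algebraMap T.F.zero D c ∈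
        (Ideal.span (Set.range g)).map (algebraMap T.F.zero D))
      (hi : ∀ c : T.F.zero, algebraMap T.F.zero D c ∈
        (Ideal.span (Set.range g)).map (algebraMap T.F.zero D) → c ∈ Ideal.span (Set.range g)) :
      (∀ (T' : FP p k) (f : T.Hom T'), T'.F.Exh → FP.Over f D →
        FLoc T' fun T'' g => P T'' (g.comp f)) →
      (∀ (T' : FP p k) (f : T.Hom T'), T'.F.Exh → (∃ i, ∃ t ∈ T'.F.F 0, f.f (g i) * t = 1) →
        FLoc T' fun T'' g => P T'' (g.comp f)) → FLoc T P
  | idem {T : FP p k} {P : (T' : FP p k) → T.Hom T' → Prop} (ι : Type) (t : ι → T.K)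
      (h0 : ∀ i, t i ∈ T.F.F 0) (ht : ∀ i, t i ^ p = t i) :
      (∀ (T' : FP p k) (f : T.Hom T'), T'.F.Exh → (∀ i, f.f (t i) = 0) →
        FLoc T' fun T'' g => P T'' (g.comp f)) →
      (∀ (T' : FP p k) (f : T.Hom T'), T'.F.Exh → (∃ i, IsUnit (f.f (t i))) →
        FLoc T' fun T'' g => P T'' (g.comp f)) → FLoc T P

theorem FLoc.mono {T : FP p k} {P Q : (T' : FP p k) → T.Hom T' → Prop} (h : FLoc T P)
    (hPQ : ∀ T' f, P T' f → Q T' f) : FLoc T Q := by
  induction h with
  | here h => exact .here (hPQ _ _ h)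
  | triv h => exact .triv h
  | pure D hD _ ih => exact .pure D hD fun T' f e o => ih T' f e o fun _ _ => hPQ _ _
  | bl a b ha hb _ ih => exact .bl a b ha hb fun T' f e o => ih T' f e o fun _ _ => hPQ _ _
  | iso ι g D hs hi _ _ ih ih' =>
    exact .iso ι g D hs hi (fun T' f e o => ih T' f e o fun _ _ => hPQ _ _)
      fun T' f e o => ih' T' f e o fun _ _ => hPQ _ _
  | idem ι t h0 ht _ _ ih ih' =>
    exact .idem ι t h0 ht (fun T' f e o => ih T' f e o fun _ _ => hPQ _ _)
      fun T' f e o => ih' T' f e o fun _ _ => hPQ _ _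

/-- faithfully flat covers -/
theorem FLoc.ff {T : FP p k} {P : (T' : FP p k) → T.Hom T' → Prop} (D : Type) [CommRing D]
    [Algebra T.F.zero D] [Module.FaithfullyFlat T.F.zero D]
    (h : ∀ (T' : FP p k) (f : T.Hom T'), T'.F.Exh → FP.Over f D →
      FLoc T' fun T'' g => P T'' (g.comp f)) : FLoc T P :=
  .pure D (fun _ _ _ x hx => (Module.FaithfullyFlat.one_tmul_eq_zero_iff T.F.zero _ x).1 hx) h

/-- Zariski covers -/
theorem FLoc.zar {T : FP p k} {P : (T' : FP p k) → T.Hom T' → Prop} (ι : Type) [Finite ι]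
    (g : ι → T.F.zero) (hg : Ideal.span (Set.range g) = ⊤)
    (h : ∀ (T' : FP p k) (f : T.Hom T'), T'.F.Exh → (∃ i, ∃ t ∈ T'.F.F 0, f.f (g i) * t = 1) →
      FLoc T' fun T'' g => P T'' (g.comp f)) : FLoc T P := by
  haveI : Pf p PUnit.{1} :=
    { char := Subsingleton.elim _ _
      bij := ⟨fun _ _ _ => Subsingleton.elim _ _, fun x => ⟨x, Subsingleton.elim _ _⟩⟩ }
  refine .iso ι g PUnit.{1} (fun d => ⟨0, ?_⟩) (fun c _ => hg ▸ Submodule.mem_top)
    (fun T' f _ o => .triv ?_) h
  · rw [Subsingleton.elim (d - _) 0]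
    exact zero_mem _
  · exact subsingleton_of_zero_eq_one (by
      rw [← o.ψ.map_zero, ← o.ψ.map_one, Subsingleton.elim (0 : PUnit.{1}) 1])

end P261
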