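import Vale.Agent.P261Z.S.Sk
import Vale.Agent.P261Z.W.Hull
import Vale.Agent.P261Z.W.Pole

/-!
# P261Z, block S: the basic representable functors
-/

noncomputable section

namespace P261.SS

open Function

variable {p : ℕ} [hp : Fact p.Prime] {k : Type} [Field k]

namespace R0

theorem of_rep {X : PF p k} (U : FP p k) (u : X.obj U) (hU : U.F.Exh)
    (h : ∀ (T : FP p k) (x : X.obj T), ∃! φ : U.Hom T, X.map φ u = x) : X.FRep :=
  ⟨Unit, inferInstance, ⟨⟨fun _ => U, fun _ => u, fun _ => hU, fun T x => by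
    obtain ⟨φ, h1, h2⟩ := h T x
    exact ⟨⟨(), φ⟩, h1, fun a ha => congrArg (Sigma.mk ()) (h2 a.2 ha)⟩⟩⟩⟩

theorem of_empty {X : PF p k} (h : ∀ T : FP p k, X.obj T → False) : X.FRep :=
  ⟨Empty, inferInstance, ⟨⟨fun i => i.elim, fun i => i.elim, fun i => i.elim,
    fun T x => (h T x).elim⟩⟩⟩

theorem of_bij {X Y : PF p k} (t : X.Tr Y) (ht : ∀ T : FP p k, Bijective (t.f (T := T)))
    (h : X.FRep) : Y.FRep := by
  obtain ⟨ι, hι, ⟨r⟩⟩ := h
  refine ⟨ι, hι, ⟨⟨r.U, fun i => t.f (r.u i), r.exh, fun T y => ?_⟩⟩⟩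
  obtain ⟨x, rfl⟩ := (ht T).2 y
  simp only [← t.map, (ht T).1.eq_iff]
  exact r.lift T x

/-- the test object with the smallest filtration in which the `a j` have weight `t j` -/
def mkT (K : Type) [CommRing K] [Algebra k K] [Pf p K] {J : Type} (a : J → K) (t : J → ℝ) :
    FP p k where
  K := K
  F := Fil.gen p (Sum.elim (algebraMap k K) a) (Sum.elim (fun _ => 0) t)
  cl := Fil.closed_gen
  k0 c := Fil.mem_gen (a := Sum.elim (algebraMap k K) a) (Sum.inl c)

theorem mem_mkT {K : Type} [CommRing K] [Algebra k K] [Pf p K] {J : Type} (a : J → K) (t : J → ℝ)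
    (j : J) : a j ∈ (mkT (k := k) K a t).F.F (t j) :=
  Fil.mem_gen (a := Sum.elim (algebraMap k K) a) (Sum.inr j)

/-- maps out of `mkT` -/
def homT {K : Type} [CommRing K] [Algebra k K] [Pf p K] {J : Type} {a : J → K} {t : J → ℝ}
    {T : FP p k} (f : K →ₐ[k] T.K) (h : ∀ j, f (a j) ∈ T.F.F (t j)) : (mkT K a t).Hom T :=
  ⟨f, (Fil.gen_maps (f := f.toRingHom) T.cl).2 fun j => by
    rcases j with c | j
    · exact (f.commutes c).symm ▸ T.k0 c
    · exact h j⟩

theorem base (B : Type) [CommRing B] [Algebra k B] [Pf p B] : (PF.base p k B).FRep :=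
  of_rep (mkT B id fun _ => 0) ⟨AlgHom.id k B, mem_mkT id _⟩ (fun x => ⟨0, mem_mkT id _ x⟩)
    fun _ x => ⟨homT x.1 x.2, rfl, fun _ h => FP.Hom.ext (congrArg Subtype.val h)⟩

theorem yo (T : FP p k) (h : T.F.Exh) : (PF.yo T).FRep :=
  of_rep T (FP.Hom.id T) h fun _ x => ⟨x, rfl, fun _ h => h⟩

variable [Pf p k] {ι : Type}

variable (p k ι) in
/-- the perfect affine space -/
def U0 : FP p k := mkT (PPoly p k ι) (J := Empty) (fun j => j.elim) fun j => j.elim

/-- the universal point -/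
def u0 : (PF.free p k ι).obj (U0 p k ι) := PPoly.X

/-- the universal value of a natural function -/
def nu (g : (PF.free p k ι).Nf) : PPoly p k ι := g.f u0

theorem nf_hom (g : (PF.free p k ι).Nf) {T : FP p k} (π : PPoly p k ι →ₐ[k] T.K) :
    g.f (T := T) (fun i => π (PPoly.X i)) = π (nu g) :=
  g.map (T := U0 p k ι) (homT π fun j => j.elim) u0

theorem nf_lift (g : (PF.free p k ι).Nf) {T : FP p k} (y : ι → T.K) :
    g.f (T := T) y = PPoly.lift y (nu g) := by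
  rw [← nf_hom]
  exact congrArg _ (funext (PPoly.lift_X y)).symm

theorem disc {D : ∀ {T : FP p k}, (PF.free p k ι).obj T → Prop} (hD : (PF.free p k ι).Disc D)
    {T : FP p k} (y : ι → T.K) : D (T := T) y ↔ D (u0 (p := p) (k := k) (ι := ι)) := by
  refine Iff.trans ?_ (hD (U0 p k ι) T (homT (PPoly.lift y) fun j => j.elim) u0)
  exact iff_of_eq (congrArg (D (T := T)) (funext (PPoly.lift_X y)).symm)

theorem exh {T : FP p k} (π : PPoly p k ι →ₐ[k] T.K) (hπ : Surjective π)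
    (h : ∀ i, ∃ t, π (PPoly.X i) ∈ T.F.F t) : T.F.Exh := by
  have h1 : ∀ a : MvPolynomial ι k, ∃ t, π (algebraMap _ (PPoly p k ι) a) ∈ T.F.F t := by
    intro a
    induction a using MvPolynomial.induction_on with
    | C c => exact ⟨0, (π.commutes c).symm ▸ T.k0 c⟩
    | add a b ha hb =>
      obtain ⟨s, hs⟩ := ha
      obtain ⟨t, ht⟩ := hb
      rw [map_add, map_add]
      exact ⟨max s t, add_mem (Fil.le hs (le_max_left _ _)) (Fil.le ht (le_max_right _ _))⟩
    | mul_X a i ha =>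
      obtain ⟨s, hs⟩ := ha
      obtain ⟨t, ht⟩ := h i
      rw [map_mul, map_mul]
      exact ⟨s + t, T.F.mul_mem hs ht⟩
  intro x
  obtain ⟨z, rfl⟩ := hπ x
  obtain ⟨n, a, e⟩ := PH.exists_pow z
  obtain ⟨t, ht⟩ := h1 a
  refine ⟨t / p ^ n, Fil.root_pow n ?_⟩
  rwa [mul_div_cancel₀ _ (pow_pos p_pos' n).ne', ← map_pow, e]

theorem chart (X : PF p k) (mk : (PF.free p k ι).Tr X) (Q : Col X)
    (hi : ∀ T : FP p k, Injective (mk.f (T := T)))
    (hs : ∀ (T : FP p k) (v : X.obj T), Q.P v → ∃ y, mk.f y = v)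
    (hc : (PF.free p k ι).Cut (fun y => Q.P (mk.f y)))
    (hb : ∀ i, ∃ t : ℝ, ∀ (T : FP p k) (y : ι → T.K), Q.P (mk.f (T := T) y) → y i ∈ T.F.F t) :
    (X.sub Q).FRep := by
  obtain ⟨D, J, J', g, t, e, hD, hQ⟩ := hc
  have hv : ∀ (T : FP p k) (v : (X.sub Q).obj T), ∃ y : ι → T.K, mk.f y = v.1 ∧ D (T := T) y ∧
      (∀ j, (g j).f (T := T) y ∈ T.F.F (t j)) ∧ ∀ j, (e j).f (T := T) y = 0 := fun T v => by
    obtain ⟨y, hy⟩ := hs T v.1 v.2
    exact ⟨y, hy, (hQ T y).1 (show Q.P (mk.f y) from hy ▸ v.2)⟩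
  by_cases h0 : D (u0 (p := p) (k := k) (ι := ι))
  swap
  · refine of_empty fun T v => h0 ?_
    obtain ⟨y, -, hy, -⟩ := hv T v
    exact (disc hD y).1 hy
  let I : Ideal (PPoly p k ι) := Ideal.span (Set.range fun j => nu (e j))
  have : Pf p (PPoly p k ι ⧸ I.radical) := Pf.quot_radical I
  let π := Ideal.Quotient.mkₐ k I.radical
  let U : FP p k := mkT (PPoly p k ι ⧸ I.radical) (fun j => π (nu (g j))) t
  have hu : Q.P (mk.f (T := U) fun i => π (PPoly.X i)) := (hQ U _).2 ⟨(disc hD _).2 h0,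
    fun j => (nf_hom (g j) (T := U) π).symm ▸ mem_mkT (k := k) (fun j => π (nu (g j))) t j,
    fun j => (nf_hom (e j) (T := U) π).trans (Ideal.Quotient.eq_zero_iff_mem.2
      (Ideal.le_radical (Ideal.subset_span ⟨j, rfl⟩)) : π (nu (e j)) = 0)⟩
  refine of_rep U ⟨_, hu⟩ (exh (T := U) π (Ideal.Quotient.mkₐ_surjective k _) fun i =>
    (hb i).imp fun s h => h U _ hu) fun T v => ?_
  obtain ⟨y, hy, -, h1, h2⟩ := hv T v
  have h3 : ∀ a ∈ I.radical, PPoly.lift y a = 0 := by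
    rintro a ⟨n, hn⟩
    refine eq_zero_of_pow (N := n) ?_
    rw [← map_pow]
    refine (Ideal.span_le (I := RingHom.ker (PPoly.lift (k := k) y)) |>.2 ?_ : I ≤ _) hn
    rintro _ ⟨j, rfl⟩
    exact (nf_lift (e j) y).symm.trans (h2 j)
  refine ⟨homT (Ideal.Quotient.liftₐ I.radical (PPoly.lift y) h3) fun j => ?_, Subtype.ext ?_,
    fun φ hφ => FP.Hom.ext (Ideal.Quotient.algHom_ext k (PPoly.hom_ext fun i => ?_))⟩
  · have h4 := h1 j
    rw [nf_lift] at h4
    exact h4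
  · refine ((mk.map _ _).symm.trans (congrArg mk.f (funext fun i => ?_))).trans hy
    exact PPoly.lift_X y i
  · have h4 := hi T (((mk.map φ _).trans (congrArg Subtype.val hφ)).trans hy.symm)
    exact (congrFun h4 i).trans (PPoly.lift_X y i).symm

/-- the equations of the marked units -/
def cG : Col (PF.free p k Bool) where
  P {T} y := y false ∈ T.F.F (-1) ∧ y true ∈ T.F.F 1 ∧ y false * y true = 1
  map φ y h := ⟨φ.mem _ _ h.1, φ.mem _ _ h.2.1, by
    show φ.f (y false) * φ.f (y true) = 1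
    rw [← map_mul, h.2.2, map_one]⟩

theorem gm : (Gm p k).FRep := by
  refine of_bij (X := (PF.free p k Bool).sub cG)
    ⟨fun y => ⟨⟨y.1 false, y.1 true, y.2.2.2, (mul_comm _ _).trans y.2.2.2⟩, y.2.1, y.2.2.1⟩,
      fun _ _ => rfl⟩ (fun T => ⟨fun y y' h => Subtype.ext (funext fun b => ?_), fun w =>
        ⟨⟨fun b => bif b then (w.1⁻¹ : T.Kˣ) else w.1, w.2.1, w.2.2, w.1.mul_inv⟩, rfl⟩⟩)
    (chart _ ⟨fun y => y, fun _ _ => rfl⟩ cG (fun _ _ _ h => h) (fun _ v _ => ⟨v, rfl⟩)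
      ⟨fun _ => True, Bool, Unit, fun b => ⟨fun y => y b, fun _ _ => rfl⟩,
        fun b => bif b then 1 else -1,
        fun _ => ⟨fun y => y false * y true - 1, fun φ y => by
          rw [map_sub, map_mul, map_one]; rfl⟩, fun _ _ _ _ => Iff.rfl, fun T y => ?_⟩ ?_)
  · cases b
    · exact congrArg (fun w => w.1.val) h
    · exact congrArg (fun w => w.1.inv) h
  · exact ⟨fun h => ⟨trivial, fun b => by cases b; exacts [h.1, h.2.1],
      fun _ => sub_eq_zero.2 h.2.2⟩, fun h => ⟨h.2.1 false, h.2.1 true, sub_eq_zero.1 (h.2.2 ())⟩⟩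
  · rintro (_ | _)
    · exact ⟨-1, fun _ _ h => h.1⟩
    · exact ⟨1, fun _ _ h => h.2.1⟩

end R0

theorem rep0 : REP0 p k := fun _ =>
  ⟨R0.base, R0.yo, R0.gm, fun X _ mk Q => R0.chart X mk Q⟩

end P261.SS
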