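import Vale.Agent.P261Z.S.Cut
import Vale.Agent.P261Z.C1.Sys

/-!
# P261Z, block S: the colours of the system of lattices are representable
-/

set_option linter.all false

noncomputable section

open Matrix

namespace P261.SS

variable {p : ℕ} [Fact p.Prime] {k : Type} [Field k]

namespace Rep3

variable {E : Type} [Fintype E] [DecidableEq E] {h : ℕ}

/-! ### bounds -/

theorem WT_sg_pow {K : Type} [CommRing K] [Pf p K] {F : Fil p K} {J : ℕ} {t : ℝ}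
    {x : WittVector p K} (n : ℕ) (hx : (si p K ^ n) x ∈ F.WT J t) : x ∈ F.WT J (p ^ n * t) := by
  induction n generalizing t with
  | zero => simpa using hx
  | succ n ih =>
    rw [pow_succ' (si p K), RingHom.mul_def, RingHom.comp_apply, ← Fil.WT_sg, sg_si] at hx
    rw [pow_succ, mul_assoc]
    exact ih hx

theorem bd_a (h J : ℕ) : ∃ t : ℝ, 0 ≤ t ∧ ∀ (T : FP p k) (a : T.W),
    Dop p T.K h a ∈ T.F.WL 1 → a ∈ T.F.WT J t := by
  induction J with
  | zero => exact ⟨0, le_rfl, fun T a _ => Fil.WT_zero a⟩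
  | succ J ih =>
    obtain ⟨t, ht, ih⟩ := ih
    refine ⟨p ^ h * (t + 1), by positivity, fun T a ha => WT_sg_pow h ?_⟩
    have h1 := add_mem (Fil.WT_le (Fil.mem_WL'.1 ha (J + 1)) le_rfl (le_add_of_nonneg_left ht))
      (Fil.WT_le (Fil.WT_p_mul (ih T a ha)) le_rfl (le_add_of_nonneg_right zero_le_one))
    rwa [Dop_apply, sub_add_cancel] at h1

section

variable {K : Type} [CommRing K] [Pf p K] {F : Fil p K} {J : ℕ} {s t : ℝ}

omit [Fintype E] in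
theorem Ua_mem {a : E → WittVector p K} (ht : 0 ≤ t) (ha : ∀ e, a e ∈ F.WT J t)
    (i j : E ⊕ Fin h) : Ua h a i j ∈ F.WT J t := by
  have h1 : ∀ {I : Type} [DecidableEq I] (i j : I), (1 : Matrix I I (WittVector p K)) i j ∈
      F.WT J t := fun i j => by
    rw [Matrix.one_apply]
    split_ifs
    exacts [Fil.WT_le Fil.WT_one le_rfl ht, zero_mem _]
  rcases i with i | i <;> rcases j with j | j
  · exact h1 i j
  · exact Fil.WT_le (Fil.WT_si_pow (ha i) j) le_rfl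
      (div_le_self ht (one_le_pow₀ (by linarith [two_le_p (p := p)])))
  · exact zero_mem _
  · exact h1 i j

theorem Ua_inv (a : E → WittVector p K) : Ua h a * Ua h (-a) = 1 := by
  rw [Ua, Ua, fromBlocks_multiply, ← fromBlocks_one]
  congr 1
  · simp
  · ext1 i j
    simp
  · simp
  · simp

theorem mul_mem {I : Type} [Fintype I] {M N : Matrix I I (WittVector p K)}
    (hM : ∀ i j, M i j ∈ F.WT J s) (hN : ∀ i j, N i j ∈ F.WT J t) (i j : I) :
    (M * N) i j ∈ F.WT J (s + t) := by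
  rw [Matrix.mul_apply]
  exact sum_mem fun l _ => Fil.WT_mul (hM i l) (hN l j)

end

/-! ### conditions -/

theorem disc_lat (b : Bool) : (LVF p k E h).Disc fun v => LV.lat v = b := fun _ _ _ _ => Iff.rfl

theorem disc_ix : (LVF p k E h).Disc fun v => LV.ix v = 0 := fun _ _ _ _ => Iff.rfl

/-- the linear forms -/
def nφ (U : Sbs p E) (l : E → ZMod p) (i : E ⊕ Fin h) : (LVF p k E h).Nf :=
  ⟨fun v => LV.φ v U l i, fun _ _ => rfl⟩

/-- the coordinates of the `ε` -/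
def neb (l : E → ZMod p) (i : E ⊕ Fin h) : (LVF p k E h).Nf :=
  ⟨fun v => LV.eb v l i, fun φ _ => LV.eb_map φ l i⟩

theorem cut_isA : (LVF p k E h).Cut fun {T} v => LV.IsA T.F v :=
  PF.Cut.all fun i => PF.Cut.wl (X := LVF p k E h) (fun {T} v => Dop p T.K h (LV.a v i))
    (fun _ _ φ v => (wm_Dop φ.r h (LV.a v i)).symm) 1

theorem cut_isZ : (LVF p k E h).Cut fun {T} v => LV.IsZ T.F v := by
  have h1 : (LVF p k E h).Cut fun v => LV.μ v * LV.ν v = 1 :=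
    PF.Cut.meq _ (fun _ => 1) (fun _ _ φ _ => Matrix.map_mul.symm)
      fun _ _ φ _ => (Matrix.map_one φ.w φ.w.map_zero φ.w.map_one).symm
  have h2 := PF.Cut.mw (X := LVF p k E h) (fun v => LV.mA v) (fun _ _ φ _ => LV.mA_map φ) 0
  have h3 := PF.Cut.mw (X := LVF p k E h) (fun v => LV.mB v) (fun _ _ φ _ => LV.mB_map φ) 0
  have h4 := PF.Cut.mw (X := LVF p k E h) (fun v => Ua h (-LV.a v) * LV.μ v) (fun _ _ φ v => by
    rw [Matrix.map_mul, Ua_map]
    exact congrArg (fun a => Ua h a * _) (funext fun i => (map_neg φ.w _).symm)) 3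
  have h5 := PF.Cut.mw (X := LVF p k E h) (fun v => LV.ν v * Ua h (LV.a v)) (fun _ _ φ v => by
    rw [Matrix.map_mul, Ua_map]
    rfl) 3
  exact (cut_isA.and ((PF.Cut.disc (disc_lat true)).and (h1.and (h2.and (h3.and
    (h4.and h5)))))).congr fun _ _ => ⟨fun ⟨a, b, c, d, e, f, g⟩ => ⟨a, b, c, d, e, f, g⟩,
      fun ⟨a, b, c, d, e, f, g⟩ => ⟨a, b, c, d, e, f, g⟩⟩

theorem cut_isJ (𝒰 : Set (Sbs p E)) : (LVF p k E h).Cut fun {T} v => LV.IsJ T.F 𝒰 v :=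
  ((PF.Cut.all fun U => PF.Cut.all fun l => PF.Cut.all fun i => PF.Cut.bound (nφ U l i) 0).and
    ((PF.Cut.all fun U => PF.Cut.all fun l => PF.Cut.all fun i =>
      PF.Cut.imp (PF.Disc.const _ (U ∉ 𝒰 ∨ l ∉ U)) (PF.Cut.eq (nφ U l i) (.zero _))).and
    (PF.Cut.all fun U => PF.Cut.imp (PF.Disc.const _ (U ∈ 𝒰)) (PF.Cut.eq
      (.sum Finset.univ fun l => .sum Finset.univ fun i => (nφ U l i).mul (neb l i))
      (.one _))))).congr fun _ _ => ⟨fun ⟨a, b, c⟩ => ⟨a, b, c⟩, fun ⟨a, b, c⟩ => ⟨a, b, c⟩⟩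

theorem cut_cA : (LVF p k E h).Cut (cA p k E h).P := by
  have h1 : (LVF p k E h).Cut fun v => LV.μ v = 0 :=
    PF.Cut.meq _ (fun _ => 0) (fun _ _ _ _ => rfl)
      fun _ _ φ _ => (Matrix.map_zero _ φ.w.map_zero).symm
  have h2 : (LVF p k E h).Cut fun v => LV.ν v = 0 :=
    PF.Cut.meq _ (fun _ => 0) (fun _ _ _ _ => rfl)
      fun _ _ φ _ => (Matrix.map_zero _ φ.w.map_zero).symm
  have h3 : (LVF p k E h).Cut fun v => LV.φ v = 0 :=
    (PF.Cut.all fun U => PF.Cut.all fun l => PF.Cut.all fun i =>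
      PF.Cut.eq (nφ U l i) (.zero _)).congr fun _ _ =>
        ⟨fun o => funext fun U => funext fun l => funext (o U l),
          fun o U l i => congrFun (congrFun (congrFun o U) l) i⟩
  exact cut_isA.and ((PF.Cut.disc (disc_lat false)).and (h1.and (h2.and
    (h3.and (PF.Cut.disc disc_ix)))))

theorem cut_cJ (𝒰 : Set (Sbs p E)) : (LVF p k E h).Cut (cJ k h 𝒰).P :=
  cut_isZ.and ((cut_isJ 𝒰).and (PF.Cut.disc disc_ix))

theorem cut_ok : ((LVF p k E h).prod (LVF p k E h)).Cut fun {T} z => LV.Ok T.F z.1 z.2 :=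
  ((PF.Cut.all fun i => PF.Cut.wl (X := (LVF p k E h).prod (LVF p k E h))
    (fun z => LV.a z.1 i - LV.a z.2 i) (fun _ _ φ _ => (map_sub φ.w _ _).symm) 1).and
    (PF.Cut.imp (X := (LVF p k E h).prod (LVF p k E h)) (D := fun z => LV.lat z.1 = true)
      (fun _ _ _ _ => Iff.rfl) (PF.Cut.imp (X := (LVF p k E h).prod (LVF p k E h))
        (D := fun z => LV.lat z.2 = true) (fun _ _ _ _ => Iff.rfl)
        (PF.Cut.mw (X := (LVF p k E h).prod (LVF p k E h)) (fun z => LV.ν z.1 * LV.μ z.2)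
          (fun _ _ φ _ => Matrix.map_mul.symm) 0)))).congr
    fun _ _ => ⟨fun ⟨a, b⟩ => ⟨a, b⟩, fun ⟨a, b⟩ => ⟨a, b⟩⟩

/-- the inclusion of a product of subfunctors -/
def inc {X Y : PF p k} (P : Col X) (Q : Col Y) : ((X.sub P).prod (Y.sub Q)).Tr (X.prod Y) :=
  ⟨fun z => (z.1.1, z.2.1), fun _ _ => rfl⟩

/-! ### the chart -/

variable (p E h) in
/-- the coordinates -/
abbrev Ix : Type := (E × ℕ) ⊕ ((E ⊕ Fin h) × (E ⊕ Fin h) × ℕ) ⊕ ((E ⊕ Fin h) × (E ⊕ Fin h) × ℕ) ⊕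
  (Sbs p E × (E → ZMod p) × (E ⊕ Fin h))

/-- the coordinates of a vertex -/
def crd {K : Type} [CommRing K] (v : LV p E h K) : Ix p E h → K
  | .inl a => (v.a a.1).coeff a.2
  | .inr (.inl a) => (v.μ a.1 a.2.1).coeff a.2.2
  | .inr (.inr (.inl a)) => (v.ν a.1 a.2.1).coeff a.2.2
  | .inr (.inr (.inr a)) => v.φ a.1 a.2.1 a.2.2

/-- the vertex with given coordinates -/
def vtx {K : Type} [CommRing K] (b : Bool) (y : Ix p E h → K) : LV p E h K where
  a e := WittVector.mk p fun j => y (.inl (e, j))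
  lat := b
  μ := Matrix.of fun i i' => WittVector.mk p fun j => y (.inr (.inl (i, i', j)))
  ν := Matrix.of fun i i' => WittVector.mk p fun j => y (.inr (.inr (.inl (i, i', j))))
  φ U l i := y (.inr (.inr (.inr (U, l, i))))
  ix := 0

omit [Fintype E] [DecidableEq E] in
theorem crd_vtx {K : Type} [CommRing K] (b : Bool) (y : Ix p E h → K) : crd (vtx b y) = y := by
  funext i
  rcases i with a | a | a | a <;> rfl

/-- the chart -/
def chart (b : Bool) : (PF.free p k (Ix p E h)).Tr (LVF p k E h) :=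
  ⟨fun y => vtx b y, fun _ _ => rfl⟩

theorem frep (hk : Pf p k) (h0 : REP0 p k) (b : Bool) (Q : Col (LVF p k E h))
    (hc : (LVF p k E h).Cut Q.P)
    (h1 : ∀ (T : FP p k) (v : LV p E h T.K), Q.P v → v.lat = b ∧ v.ix = 0)
    (h2 : ∀ J, ∃ t : ℝ, ∀ (T : FP p k) (v : LV p E h T.K), Q.P v → (∀ e, v.a e ∈ T.F.WT J t) ∧
      (∀ i j, v.μ i j ∈ T.F.WT J t) ∧ (∀ i j, v.ν i j ∈ T.F.WT J t) ∧
      ∀ U l i, v.φ U l i ∈ T.F.F 0) : ((LVF p k E h).sub Q).FRep := by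
  refine (h0 hk).2.2.2 _ _ (chart b) Q (fun T y y' e => ?_) (fun T v hv => ⟨crd v, ?_⟩)
    (hc.comap _) fun i => ?_
  · exact (crd_vtx b y).symm.trans ((congrArg crd e).trans (crd_vtx b y'))
  · exact LV.ext rfl (h1 T v hv).1.symm rfl rfl rfl (h1 T v hv).2.symm
  · rcases i with a | a | a | a
    · obtain ⟨t, ht⟩ := h2 (a.2 + 1)
      exact ⟨_, fun T y hy => (ht T _ hy).1 a.1 a.2 a.2.lt_succ_self⟩
    · obtain ⟨t, ht⟩ := h2 (a.2.2 + 1)
      exact ⟨_, fun T y hy => (ht T _ hy).2.1 a.1 a.2.1 a.2.2 a.2.2.lt_succ_self⟩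
    · obtain ⟨t, ht⟩ := h2 (a.2.2 + 1)
      exact ⟨_, fun T y hy => (ht T _ hy).2.2.1 a.1 a.2.1 a.2.2 a.2.2.lt_succ_self⟩
    · obtain ⟨t, ht⟩ := h2 0
      exact ⟨_, fun T y hy => (ht T _ hy).2.2.2 a.1 a.2.1 a.2.2⟩

/-- the bounds for a lattice -/
theorem bd_Z (J : ℕ) : ∃ t : ℝ, ∀ (T : FP p k) (v : LV p E h T.K), v.IsZ T.F →
    (∀ e, v.a e ∈ T.F.WT J t) ∧ (∀ i j, v.μ i j ∈ T.F.WT J t) ∧ ∀ i j, v.ν i j ∈ T.F.WT J t := by
  obtain ⟨t, ht, h1⟩ := bd_a (p := p) (k := k) h J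
  refine ⟨t + 3, fun T v hv => ?_⟩
  have h2 := fun e => h1 T _ (hv.isA e)
  refine ⟨fun e => Fil.WT_le (h2 e) le_rfl (by linarith), fun i j => ?_, fun i j => ?_⟩
  · have h3 := mul_mem (Ua_mem ht h2) (fun i j => Fil.mem_WL'.1 (hv.b1 i j) J) i j
    rwa [← Matrix.mul_assoc, Ua_inv, Matrix.one_mul] at h3
  · have h3 := mul_mem (fun i j => Fil.mem_WL'.1 (hv.b2 i j) J)
      (Ua_mem (a := -v.a) ht fun e => neg_mem (h2 e)) i j
    rwa [Matrix.mul_assoc, Ua_inv, Matrix.mul_one, add_comm] at h3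

end Rep3

open Rep3 in
theorem rep3' (h0 : REP0 p k) : REP3 p k := by
  intro hk E _ _ h _
  refine ⟨frep hk h0 false _ cut_cA (fun T v hv => ⟨hv.2.1, hv.2.2.2.2.2⟩) fun J => ?_,
    fun 𝒰 => frep hk h0 true _ (cut_cJ 𝒰) (fun T v hv => ⟨hv.1.lat, hv.2.2⟩) fun J => ?_,
    fun X κ _ P hX hP => ⟨inferInstance, hX, hP, fun _ => PF.Cut.const _ True, fun c c' =>
      cut_ok.comap (inc (P c) (P c'))⟩⟩
  · obtain ⟨t, -, h1⟩ := bd_a (p := p) (k := k) h J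
    refine ⟨t, fun T v ⟨a1, _, a3, a4, a5, _⟩ => ⟨fun e => h1 T _ (a1 e), ?_, ?_, ?_⟩⟩
    · rw [a3]
      exact fun _ _ => zero_mem _
    · rw [a4]
      exact fun _ _ => zero_mem _
    · rw [a5]
      exact fun _ _ _ => zero_mem _
  · obtain ⟨t, h1⟩ := bd_Z (p := p) (k := k) (E := E) (h := h) J
    exact ⟨t, fun T v hv => ⟨(h1 T v hv.1).1, (h1 T v hv.1).2.1, (h1 T v hv.1).2.2, hv.2.1.mem⟩⟩

theorem rep3 (h0 : REP0 p k) (_ : CUT p k) : REP3 p k := rep3' h0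

theorem rpl (hk : Pf p k) (h0 : REP0 p k) : C1.RPL p k := fun E _ _ h B _ _ _ κ _ 𝒰 hh =>
  (rep3' h0 hk E h hh).2.2 _ κ _ ((h0 hk).1 B) fun c => (rep3' h0 hk E h hh).2.1 (𝒰 c)

end P261.SS
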