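import Vale.Agent.P261Z.S.CF
import Vale.Agent.P261Z.L.Spec

/-!
# P261Z, block S: the statements
-/

noncomputable section

namespace P261.SS

open Function

universe u v

variable (p : ℕ) [Fact p.Prime] (k : Type) [Field k]

/-! ### filtered complexes -/

/-- almost acyclic complexes are good -/
def AACG : Prop := ∀ (A : FA.{u} p k) (q : ℕ), (A.Ctr → A.AAc) ∧ (A.AAc → A.Good q)

/-- retracts -/
def DOMG : Prop := ∀ (A : FA.{u} p k) (B : FA.{v} p k) (_ : A.Dom B),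
  (∀ n β β', β ≤ β' → B.Nul n β β' → A.Nul n β β') ∧ (B.Ctr → A.Ctr) ∧ (B.AAc → A.AAc) ∧
    ∀ q, B.Good q → A.Good q

/-- two out of three -/
def SEG : Prop := (p : k) = 0 → ∀ (K M Q : FA.{u} p k) (_ : FA.SE K M Q),
  ((K.AAc → Q.AAc → M.AAc) ∧ (M.AAc → Q.AAc → K.AAc) ∧ (K.AAc → M.AAc → Q.AAc)) ∧
  ∀ q, 1 ≤ q → (K.Good q → Q.Good q → M.Good q) ∧ (M.Good q → Q.Good q → K.Good q) ∧
    (K.Good q → M.Good q → Q.Good q)

/-- almost quasi isomorphisms -/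
def AQG : Prop := ∀ (A : FA.{u} p k) (B : FA.{v} p k) (f : A.Map B), f.AQ →
  (A.AAc ↔ B.AAc) ∧ ((p : k) = 0 → ∀ q, 1 ≤ q → (A.Good q ↔ B.Good q))

/-! ### homotopies -/

/-- homotopic maps of configurations -/
def CH : Prop := ∀ (C C' : CF p k) (F₀ F₁ : C.Map C')
  (H : ∀ (n : ℕ) (T : FP p k), (Fin (n + 1) → Bool) → (C.Z n).obj T → (C'.Z n).obj T),
  (∀ n (T T' : FP p k) (φ : T.Hom T') χ z,
    H n T' χ ((C.Z n).map φ z) = (C'.Z n).map φ (H n T χ z)) →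
  (∀ m n T (f : Fin (m + 1) → Fin (n + 1)) χ z,
    H m T (χ ∘ f) (C.res f z) = C'.res f (H n T χ z)) →
  (∀ n T χ z, C.Full z → C'.Full (H n T χ z)) →
  (∀ n T z, H n T (fun _ => false) z = F₀.f z) → (∀ n T z, H n T (fun _ => true) z = F₁.f z) →
  ∀ β n, ∀ g ∈ (C'.step β).S n, C'.cos.d n g = 0 →
    F₁.pull.app n g - F₀.pull.app n g ∈ (C.step β).bd n

/-- retracts of configuration functors -/
def RETRACT : Prop := ∀ (C C' : CF p k) (a : C.Act) (a' : C'.Act) (G : C.Map C') (F : C'.Map C),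
  (∀ n T (z : (C.Z n).obj T), F.f (G.f z) = z) →
  (∀ s, s % p = 1 → ∀ n T (z : (C.Z n).obj T), G.f ((a.e s).f z) = (a'.e s).f (G.f z)) →
  Nonempty ((C.fa a).Dom (C'.fa a'))

/-- a natural section of a reduced direction -/
def SEC : Prop := ∀ (S : Sys p k) (κ : Type) (P : κ → Col S.V) (md : κ → Mode) (c : κ)
  (s : ∀ (n : ℕ) (T : FP p k), S.Conf P md (n + 1) T → Fin (n + 1) → S.V.obj T), md c = .red →
  (∀ n (T T' : FP p k) (φ : T.Hom T') z i, s n T' (z.map φ) i = S.V.map φ (s n T z i)) →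
  (∀ m n T (f : Fin (m + 1) → Fin (n + 1)) z i, s m T (z.res f) i = s n T z (f i)) →
  (∀ n T z i, (P c).P (s n T z i) ∧ S.ok1 z.x (s n T z i)) →
  (∀ n T z i j, S.ok2 (s n T z i) (s n T z j)) →
  (∀ n T z i c' j u, z.w c' j = some u → S.ok2 (s n T z i) u ∧ S.ok2 u (s n T z i)) →
  (S.cf P md).Ctr

/-! ### one direction -/

/-- the short exact sequence of a direction -/
def SEDIR : Prop := ∀ (S : Sys p k) (a : S.Act) (κ : Type) [DecidableEq κ] (P : κ → Col S.V)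
  (md : κ → Mode) (h : ∀ c, a.Stab (P c)) (c : κ),
  Nonempty (FA.SE (S.fa a P (update md c .red) h) (S.fa a P (update md c .opt) h)
    (S.fa a P (update md c .on) h))

/-- optional directions can be removed -/
def OPT : Prop := ∀ (S : Sys p k) (a : S.Act) (κ : Type) [DecidableEq κ] (P : κ → Col S.V)
  (md : κ → Mode) (h : ∀ c, a.Stab (P c)) (c : κ),
  Nonempty ((S.fa a P (update md c .opt) h).Dom (S.fa a P (update md c .off) h)) ∧
  Nonempty ((S.fa a P (update md c .off) h).Dom (S.fa a P (update md c .opt) h))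

/-- two out of three for the modes `red`, `off`, `on` -/
def TOG : Prop := (p : k) = 0 → ∀ (S : Sys p k) (a : S.Act) (κ : Type) (P : κ → Col S.V)
  (h : ∀ c, a.Stab (P c)) (c : κ) (m₁ m₂ m₃ : κ → Mode), m₁ c = .red → m₂ c = .off → m₃ c = .on →
  (∀ c', c' ≠ c → m₁ c' = m₂ c' ∧ m₂ c' = m₃ c') →
  ((S.AAc P m₁ → S.AAc P m₂ → S.AAc P m₃) ∧ (S.AAc P m₁ → S.AAc P m₃ → S.AAc P m₂) ∧
    (S.AAc P m₂ → S.AAc P m₃ → S.AAc P m₁)) ∧
  ∀ q, 1 ≤ q →
    ((S.fa a P m₁ h).Good q → (S.fa a P m₂ h).Good q → (S.fa a P m₃ h).Good q) ∧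
    ((S.fa a P m₁ h).Good q → (S.fa a P m₃ h).Good q → (S.fa a P m₂ h).Good q) ∧
    ((S.fa a P m₂ h).Good q → (S.fa a P m₃ h).Good q → (S.fa a P m₁ h).Good q)

/-- exchange of two colours -/
def SWAP : Prop := (p : k) = 0 → ∀ (S : Sys p k) (a : S.Act) (κ : Type) [DecidableEq κ]
  (P : κ → Col S.V) (h : ∀ c, a.Stab (P c)) (md : κ → Mode) (c c' : κ), c ≠ c' →
  S.AAc P (update (update md c .red) c' .on) → S.AAc P (update (update md c .on) c' .red) →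
  ∀ m : Mode, m = .on ∨ m = .red →
    (S.AAc P (update (update md c m) c' .off) ↔ S.AAc P (update (update md c .off) c' m)) ∧
    ∀ q, 1 ≤ q → ((S.fa a P (update (update md c m) c' .off) h).Good q ↔
      (S.fa a P (update (update md c .off) c' m) h).Good q)

/-- renaming the directions -/
def REIDX : Prop := ∀ (S : Sys p k) (a : S.Act) (κ κ' : Type) (P : κ → Col S.V) (P' : κ' → Col S.V)
  (md : κ → Mode) (md' : κ' → Mode) (h : ∀ c, a.Stab (P c)) (h' : ∀ c, a.Stab (P' c)) (e : κ → κ'),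
  Injective e → (∀ c, md' (e c) = md c) → (∀ c', c' ∉ Set.range e → md' c' = .off) →
  (∀ c, md c ≠ .off → ∀ (T : FP p k) (v : S.V.obj T), (P c).P v ↔ (P' (e c)).P v) →
  Nonempty ((S.fa a P md h).Dom (S.fa a P' md' h')) ∧
  Nonempty ((S.fa a P' md' h').Dom (S.fa a P md h))

/-! ### moving to the base -/

/-- the directions in `D` are moved into the base -/
def ROW : Prop := ∀ (S : Sys p k) (κ : Type) (P : κ → Col S.V) (md : κ → Mode) (D : κ → Prop)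
  [DecidablePred D],
  (∀ m, (S.mv P (Sys.keep md D) (m + 1)).AAc P (Sys.drop md D)) → S.AAc P md

/-- reduction to the marked universal points -/
def RETR : Prop := ∀ (X : PF p k) (C : CFO X) (ι : Type) (r : (X.prod (Gm p k)).MRep ι),
  (∀ i, (C.loc (r.U i) (r.u i).1).toCF.AAc) → C.toCF.AAc

/-- the two base changes agree -/
def BCEQ : Prop := ∀ (S : Sys p k) (κ : Type) (P : κ → Col S.V) (md : κ → Mode) (Y : PF p k)
  (t : Y.Tr S.X), ((S.bc t).AAc P md ↔ ((S.cfo P md).bc t).toCF.AAc) ∧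
  ∀ n, (((S.bc t).cf P md).nf n).FRep → (((S.cfo P md).bc t).toCF.nf n).FRep

/-- almost acyclicity is local -/
def LOCAL : Prop := Pf p k → ∀ (X : PF p k) (C : CFO X) (T : FP p k) (_ : (Gm p k).obj T)
  (x : X.obj T), T.F.Exh → (∀ n, ((C.loc T x).toCF.nf n).FRep) →
  FLoc T (fun T' f => C.LAc T' (X.map f x)) → (C.loc T x).toCF.AAc

/-- completions -/
def CPL : Prop := ∀ (C : Type) [CommRing C] [Pf p C] (I : Ideal C), I.FG →
  ∃ (D : Type) (_ : CommRing D) (_ : Algebra C D) (_ : Pf p D),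
    IsAdicComplete (I.map (algebraMap C D)) D ∧
    (∀ d : D, ∃ c : C, d - algebraMap C D c ∈ I.map (algebraMap C D)) ∧
    ∀ c : C, algebraMap C D c ∈ I.map (algebraMap C D) → c ∈ I

/-! ### representability -/

/-- closure properties of `Cut` -/
def CUT : Prop := ∀ X : PF p k,
  (∀ D : ∀ {T : FP p k}, X.obj T → Prop, X.Disc D → X.Cut D) ∧
  (∀ (g : X.Nf) (t : ℝ), X.Cut fun {T} x => g.f x ∈ T.F.F t) ∧
  (∀ g g' : X.Nf, X.Cut fun x => g.f x = g'.f x) ∧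
  (∀ Q Q' : ∀ {T : FP p k}, X.obj T → Prop, X.Cut Q → X.Cut Q' → X.Cut fun x => Q x ∧ Q' x) ∧
  (∀ (J : Type) (Q : J → ∀ {T : FP p k}, X.obj T → Prop), (∀ j, X.Cut (Q j)) →
    X.Cut fun x => ∀ j, Q j x) ∧
  (∀ D Q : ∀ {T : FP p k}, X.obj T → Prop, X.Disc D → X.Cut Q → X.Cut fun x => D x → Q x) ∧
  (∀ (D : Col X) (Q : ∀ {T : FP p k}, (X.sub D).obj T → Prop), X.Disc D.P → (X.sub D).Cut Q →
    X.Cut fun x => ∀ h : D.P x, Q ⟨x, h⟩) ∧
  (∀ Q Q' : ∀ {T : FP p k}, X.obj T → Prop, (∀ T (x : X.obj T), Q x ↔ Q' x) → X.Cut Q → X.Cut Q') ∧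
  (∀ (Y : PF p k) (t : Y.Tr X) (Q : ∀ {T : FP p k}, X.obj T → Prop), X.Cut Q →
    Y.Cut fun y => Q (t.f y)) ∧
  (∀ (g : ∀ {T : FP p k}, X.obj T → T.W),
    (∀ (T T' : FP p k) (φ : T.Hom T') x, g (X.map φ x) = φ.w (g x)) →
    (∀ t : ℝ, X.Cut fun {T} x => g x ∈ T.F.WL t) ∧ X.Cut fun x => g x = 0)

/-- the basic representable functors -/
def REP0 : Prop := Pf p k →
  (∀ (B : Type) [CommRing B] [Algebra k B] [Pf p B], (PF.base p k B).FRep) ∧
  (∀ T : FP p k, T.F.Exh → (PF.yo T).FRep) ∧ (Gm p k).FRep ∧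
  ∀ (X : PF p k) (ι : Type) (mk : (PF.free p k ι).Tr X) (Q : Col X),
    (∀ T : FP p k, Injective (mk.f (T := T))) →
    (∀ (T : FP p k) (v : X.obj T), Q.P v → ∃ y, mk.f y = v) →
    (PF.free p k ι).Cut (fun y => Q.P (mk.f y)) →
    (∀ i, ∃ t : ℝ, ∀ (T : FP p k) (y : ι → T.K), Q.P (mk.f (T := T) y) → y i ∈ T.F.F t) →
    (X.sub Q).FRep

/-- closure properties of `FRep` -/
def REP1 : Prop := Pf p k →
  (∀ X Y : PF p k, X.FRep → Y.FRep → (X.prod Y).FRep) ∧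
  (∀ (X : PF p k) (Q : Col X), X.FRep → X.Cut Q.P → (X.sub Q).FRep) ∧
  (∀ (X Y : PF p k) (t : X.Tr Y), (∀ T : FP p k, Bijective (t.f (T := T))) → X.FRep → Y.FRep) ∧
  ∀ (X : PF p k) (J : Type) [Finite J] (d : ∀ {T : FP p k}, X.obj T → J)
    (hd : ∀ (T T' : FP p k) (φ : T.Hom T') x, d (X.map φ x) = d x),
    (∀ j, (X.sub ⟨fun x => d x = j, fun φ _ h => (hd _ _ φ _).trans h⟩).FRep) → X.FRep

/-- configurations are representable -/
def REP2 : Prop := Pf p k → ∀ (S : Sys p k) (κ : Type) (P : κ → Col S.V), S.Rp P →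
  (∀ md n, (S.conf P md n).FRep) ∧ (∀ md n, ((S.cf P md).nf n).FRep) ∧
  (∀ (Y : PF p k) (t : Y.Tr S.X), Y.FRep → (S.bc t).Rp P) ∧ ∀ md m, (S.mv P md m).Rp P

/-- the colours of the system of lattices -/
def REP3 : Prop := Pf p k →
  ∀ (E : Type) [Fintype E] [DecidableEq E] (h : ℕ), 1 ≤ h →
  ((LVF p k E h).sub (cA p k E h)).FRep ∧
  (∀ 𝒰 : Set (Sbs p E), ((LVF p k E h).sub (cJ k h 𝒰)).FRep) ∧
  ∀ (X : PF p k) (κ : Type) [Finite κ] (P : κ → Col (LVF p k E h)), X.FRep →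
    (∀ c, ((LVF p k E h).sub (P c)).FRep) → (LS p k E h X).Rp P

/-! ### the local criteria -/

/-- the complex is locally almost acyclic over the configurations of the directions in `D` -/
def KEY : Prop := Pf p k → ∀ (S : Sys p k) (κ : Type) (P : κ → Col S.V) (md : κ → Mode)
  (D : κ → Prop) [DecidablePred D], S.Rp P →
  (∀ (m : ℕ) (T : FP p k) (_ : (Gm p k).obj T), T.F.Exh →
    ∀ z : S.Conf P (Sys.keep md D) (m + 1) T, FLoc T fun T' f =>
      (S.mv P (Sys.keep md D) (m + 1)).LAc P (Sys.drop md D) T' (z.map f)) → S.AAc P md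

variable {p k} in
/-- `u` is compatible with the configuration `z` -/
def Fits {S : Sys p k} {κ : Type} {P : κ → Col S.V} {md : κ → Mode} {n : ℕ} {T : FP p k}
    (z : S.Conf P md n T) (c : κ) (u : S.V.obj T) : Prop :=
  (P c).P u ∧ S.ok1 z.x u ∧ ∀ c' i u', z.w c' i = some u' → S.ok2 u' u ∧ S.ok2 u u'

/-- local sections of the moving directions -/
def SECLOC : Prop := Pf p k → ∀ (S : Sys p k) (κ : Type) (P : κ → Col S.V) (md : κ → Mode)
  (R : κ → Prop) [DecidablePred R], S.Rp P →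
  (∀ (m : ℕ) (T : FP p k) (_ : (Gm p k).obj T), T.F.Exh →
    ∀ z : S.Conf P (Sys.drop md R) (m + 1) T, FLoc T fun T' f =>
      ∃ c, R c ∧ md c = .red ∧ ∃ s : S.V.obj T', Fits (z.map f) c s ∧ S.ok2 s s ∧
        ∀ (T'' : FP p k) (g : T'.Hom T'') (c' : κ) (u : S.V.obj T''), R c' → md c' ≠ .off →
          Fits ((z.map f).map g) c' u → S.ok2 (S.V.map g s) u ∧ S.ok2 u (S.V.map g s)) →
  S.AAc P md

end P261.SS
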