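import Vale.Agent.P261Z.S.Sk
import Vale.Agent.P261Z.W.Hull
import Vale.Agent.P261Z.W.Pole

/-!
# P261Z, block S: closure properties of representable functors
-/

noncomputable section

open Function
open scoped TensorProduct

namespace P261

variable {p : ℕ} [hp : Fact p.Prime] {k : Type} [Field k]

namespace SS.R1

/-- the elements together with their weights -/
abbrev Wt (T : FP p k) : Type := {z : ℝ × T.K // z.2 ∈ T.F.F z.1}

omit hp in
theorem exh_add {K : Type} [CommRing K] {F : Fil p K} {x y : K} (hx : ∃ t, x ∈ F.F t)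
    (hy : ∃ t, y ∈ F.F t) : ∃ t, x + y ∈ F.F t :=
  let ⟨s, hs⟩ := hx
  let ⟨t, ht⟩ := hy
  ⟨max s t, add_mem (Fil.le hs (le_max_left _ _)) (Fil.le ht (le_max_right _ _))⟩

/-- tensor products -/
theorem exists_ten [Pf p k] (T T' : FP p k) (h : T.F.Exh) (h' : T'.F.Exh) :
    ∃ (U : FP p k) (a : T.Hom U) (b : T'.Hom U), U.F.Exh ∧
      (∀ (V : FP p k) (φ : T.Hom V) (φ' : T'.Hom V), ∃ ψ : U.Hom V, ψ.comp a = φ ∧ ψ.comp b = φ') ∧
      ∀ (V : FP p k) (ψ ψ' : U.Hom V), ψ.comp a = ψ'.comp a → ψ.comp b = ψ'.comp b → ψ = ψ' := by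
  let g : Wt T ⊕ Wt T' → T.K ⊗[k] T'.K := Sum.elim (fun z => z.1.2 ⊗ₜ 1) fun z => 1 ⊗ₜ z.1.2
  let τ : Wt T ⊕ Wt T' → ℝ := Sum.elim (fun z => z.1.1) fun z => z.1.1
  have h1 : ∀ t x, x ∈ T.F.F t → x ⊗ₜ 1 ∈ (Fil.gen p g τ).F t := fun t x hx =>
    Fil.mem_gen (a := g) (τ := τ) (.inl ⟨(t, x), hx⟩)
  have h2 : ∀ t x, x ∈ T'.F.F t → 1 ⊗ₜ x ∈ (Fil.gen p g τ).F t := fun t x hx =>
    Fil.mem_gen (a := g) (τ := τ) (.inr ⟨(t, x), hx⟩)
  refine ⟨⟨T.K ⊗[k] T'.K, Fil.gen p g τ, Fil.closed_gen, fun c => h1 _ _ (T.k0 c)⟩,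
    ⟨Algebra.TensorProduct.includeLeft, h1⟩, ⟨Algebra.TensorProduct.includeRight, h2⟩,
    fun x : T.K ⊗[k] T'.K => show ∃ t, x ∈ (Fil.gen p g τ).F t from ?_, fun V φ φ' => ⟨⟨Algebra.TensorProduct.lift φ.f φ'.f fun _ _ => .all _ _,
      (Fil.gen_maps (f := (Algebra.TensorProduct.lift φ.f φ'.f fun _ _ => .all _ _).toRingHom)
        V.cl).2 ?_⟩, ?_, ?_⟩, fun V ψ ψ' e e' => FP.Hom.ext ?_⟩
  · induction x with
    | zero => exact ⟨0, zero_mem _⟩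
    | tmul x y =>
      obtain ⟨s, hs⟩ := h x
      obtain ⟨t, ht⟩ := h' y
      have := (Fil.gen p g τ).mul_mem (h1 _ _ hs) (h2 _ _ ht)
      rw [Algebra.TensorProduct.tmul_mul_tmul, mul_one, one_mul] at this
      exact ⟨_, this⟩
    | add x y hx hy => exact exh_add hx hy
  · rintro (z | z)
    · simpa [g, τ] using φ.mem _ _ z.2
    · simpa [g, τ] using φ'.mem _ _ z.2
  · exact FP.Hom.ext (Algebra.TensorProduct.lift_comp_includeLeft _ _ fun _ _ => .all _ _)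
  · exact FP.Hom.ext (Algebra.TensorProduct.lift_comp_includeRight' _ _ fun _ _ => .all _ _)
  · exact Algebra.TensorProduct.ext (congrArg FP.Hom.f e) (congrArg FP.Hom.f e')

/-- bounds and equations -/
theorem exists_quo (T : FP p k) (h : T.F.Exh) {J J' : Type} (g : J → T.K) (t : J → ℝ)
    (e : J' → T.K) : ∃ (U : FP p k) (a : T.Hom U), U.F.Exh ∧ (∀ j, a.f (g j) ∈ U.F.F (t j)) ∧
      (∀ j, a.f (e j) = 0) ∧ (∀ (V : FP p k) (φ : T.Hom V), (∀ j, φ.f (g j) ∈ V.F.F (t j)) →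
        (∀ j, φ.f (e j) = 0) → ∃ ψ : U.Hom V, ψ.comp a = φ) ∧
      ∀ (V : FP p k) (ψ ψ' : U.Hom V), ψ.comp a = ψ'.comp a → ψ = ψ' := by
  let I : Ideal T.K := (Ideal.span (Set.range e)).radical
  have : Pf p (T.K ⧸ I) := Pf.quot_radical _
  let a : Wt T ⊕ J → T.K ⧸ I := fun z => Ideal.Quotient.mk I (Sum.elim (fun z => z.1.2) g z)
  let τ : Wt T ⊕ J → ℝ := Sum.elim (fun z => z.1.1) t
  have h1 : ∀ t x, x ∈ T.F.F t → Ideal.Quotient.mk I x ∈ (Fil.gen p a τ).F t := fun t x hx =>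
    Fil.mem_gen (a := a) (τ := τ) (.inl ⟨(t, x), hx⟩)
  refine ⟨⟨T.K ⧸ I, Fil.gen p a τ, Fil.closed_gen, fun c => h1 _ _ (T.k0 c)⟩,
    ⟨Ideal.Quotient.mkₐ k I, h1⟩, fun x => ?_, fun j => Fil.mem_gen (a := a) (τ := τ) (.inr j),
    fun j => Ideal.Quotient.eq_zero_iff_mem.2 (Ideal.le_radical (Ideal.subset_span ⟨j, rfl⟩)),
    fun V φ h2 h3 => ?_, fun V ψ ψ' e =>
      FP.Hom.ext (Ideal.Quotient.algHom_ext k (congrArg FP.Hom.f e))⟩
  · obtain ⟨x, rfl⟩ := Ideal.Quotient.mk_surjective x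
    exact (h x).imp fun t => h1 t x
  · have h4 : ∀ x ∈ I, φ.f x = 0 := fun x ⟨n, hn⟩ => eq_zero_of_pow (N := n) (by
      rw [← map_pow]
      exact (Ideal.span_le (I := RingHom.ker φ.f)).2 (Set.range_subset_iff.2 h3) hn)
    refine ⟨⟨Ideal.Quotient.liftₐ I φ.f h4, (Fil.gen_maps
      (f := (Ideal.Quotient.liftₐ I φ.f h4).toRingHom) V.cl).2 ?_⟩, FP.Hom.ext (AlgHom.ext
        fun _ => rfl)⟩
    rintro (z | j)
    exacts [φ.mem _ _ z.2, h2 j]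

/-- the initial object -/
theorem exists_init [Pf p k] : ∃ U : FP p k, U.F.Exh ∧ ∀ V : FP p k, Nonempty (U.Hom V) ∧
    ∀ ψ ψ' : U.Hom V, ψ = ψ' :=
  ⟨⟨k, Fil.gen p id fun _ => 0, Fil.closed_gen, fun c => Fil.mem_gen (a := id) c⟩,
    fun c => ⟨0, Fil.mem_gen (a := id) c⟩, fun V => ⟨⟨⟨Algebra.ofId k V.K,
      (Fil.gen_maps (f := algebraMap k V.K) V.cl).2 V.k0⟩⟩,
      fun _ _ => FP.Hom.ext (Algebra.ext_id _ _ _)⟩⟩

end SS.R1

namespace PF

open SS.R1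

variable {X Y : PF p k} {ι : Type}

theorem MRep.ex (r : X.MRep ι) {T : FP p k} (x : X.obj T) :
    ∃ (i : ι) (φ : (r.U i).Hom T), X.map φ (r.u i) = x :=
  let ⟨a, h, _⟩ := r.lift T x
  ⟨a.1, a.2, h⟩

theorem MRep.idx (r : X.MRep ι) {T : FP p k} {i i' : ι} {φ : (r.U i).Hom T} {φ' : (r.U i').Hom T}
    (h : X.map φ (r.u i) = X.map φ' (r.u i')) : i = i' :=
  congrArg Sigma.fst ((r.lift T _).unique (y₁ := ⟨i, φ⟩) (y₂ := ⟨i', φ'⟩) h rfl)

theorem MRep.hom (r : X.MRep ι) {T : FP p k} {i : ι} {φ φ' : (r.U i).Hom T}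
    (h : X.map φ (r.u i) = X.map φ' (r.u i)) : φ = φ' :=
  eq_of_heq (Sigma.mk.inj ((r.lift T _).unique (y₁ := ⟨i, φ⟩) (y₂ := ⟨i, φ'⟩) h rfl)).2

theorem FRep.of [Finite ι] (U : ι → FP p k) (u : ∀ i, X.obj (U i)) (exh : ∀ i, (U i).F.Exh)
    (ex : ∀ (T : FP p k) (x : X.obj T), ∃ (i : ι) (φ : (U i).Hom T), X.map φ (u i) = x)
    (idx : ∀ (T : FP p k) (i i' : ι) (φ : (U i).Hom T) (φ' : (U i').Hom T),
      X.map φ (u i) = X.map φ' (u i') → i = i')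
    (hom : ∀ (T : FP p k) (i : ι) (φ φ' : (U i).Hom T), X.map φ (u i) = X.map φ' (u i) → φ = φ') :
    X.FRep := by
  refine ⟨ι, ‹_›, ⟨⟨U, u, exh, fun T x => ?_⟩⟩⟩
  obtain ⟨i, φ, rfl⟩ := ex T x
  refine ⟨⟨i, φ⟩, rfl, ?_⟩
  rintro ⟨i', φ'⟩ h
  obtain rfl := idx T _ _ _ _ h
  exact congrArg (Sigma.mk _) (hom T _ _ _ h)

theorem FRep.prod [Pf p k] (hX : X.FRep) (hY : Y.FRep) : (X.prod Y).FRep := by
  obtain ⟨ι, _, ⟨r⟩⟩ := hX
  obtain ⟨ι', _, ⟨r'⟩⟩ := hY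
  choose U a b h1 h2 h3 using fun i : ι × ι' =>
    exists_ten (r.U i.1) (r'.U i.2) (r.exh _) (r'.exh _)
  refine .of U (fun i => (X.map (a i) (r.u i.1), Y.map (b i) (r'.u i.2))) h1 (fun T x => ?_)
    (fun T i i' φ φ' h => ?_) fun T i φ φ' h => ?_
  · obtain ⟨i, φ, e⟩ := r.ex x.1
    obtain ⟨i', φ', e'⟩ := r'.ex x.2
    obtain ⟨ψ, rfl, rfl⟩ := h2 (i, i') T φ φ'
    exact ⟨(i, i'), ψ, Prod.ext ((X.map_comp _ _ _).symm.trans e)
      ((Y.map_comp _ _ _).symm.trans e')⟩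
  · exact Prod.ext
      (r.idx ((X.map_comp _ _ _).trans ((congrArg Prod.fst h).trans (X.map_comp _ _ _).symm)))
      (r'.idx ((Y.map_comp _ _ _).trans ((congrArg Prod.snd h).trans (Y.map_comp _ _ _).symm)))
  · exact h3 i T φ φ'
      (r.hom ((X.map_comp _ _ _).trans ((congrArg Prod.fst h).trans (X.map_comp _ _ _).symm)))
      (r'.hom ((Y.map_comp _ _ _).trans ((congrArg Prod.snd h).trans (Y.map_comp _ _ _).symm)))

theorem FRep.sub {Q : Col X} (hX : X.FRep) (hQ : X.Cut Q.P) : (X.sub Q).FRep := by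
  obtain ⟨ι, _, ⟨r⟩⟩ := hX
  obtain ⟨D, J, J', g, t, e, hD, hQ⟩ := hQ
  choose U a h1 h2 h3 h4 h5 using fun i : {i // D (r.u i)} =>
    exists_quo (r.U i) (r.exh _) (fun j => (g j).f (r.u i)) t fun j => (e j).f (r.u i)
  refine .of U (fun i => ⟨X.map (a i) (r.u i), (hQ _ _).2 ⟨(hD _ _ _ _).2 i.2,
    fun j => (g j).map _ _ ▸ h2 i j, fun j => ((e j).map _ _).trans (h3 i j)⟩⟩) h1
    (fun T x => ?_) (fun T i i' φ φ' h => ?_) fun T i φ φ' h => ?_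
  · obtain ⟨x, hx⟩ := x
    obtain ⟨i, φ, rfl⟩ := r.ex x
    obtain ⟨b1, b2, b3⟩ := (hQ _ _).1 hx
    obtain ⟨ψ, hψ⟩ := h4 ⟨i, (hD _ _ _ _).1 b1⟩ T φ (fun j => (g j).map _ _ ▸ b2 j)
      fun j => ((e j).map _ _).symm.trans (b3 j)
    exact ⟨_, ψ, Subtype.ext ((X.map_comp _ _ _).symm.trans (congrArg (X.map · _) hψ))⟩
  · exact Subtype.ext
      (r.idx ((X.map_comp _ _ _).trans ((congrArg Subtype.val h).trans (X.map_comp _ _ _).symm)))
  · exact h5 i T φ φ'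
      (r.hom ((X.map_comp _ _ _).trans ((congrArg Subtype.val h).trans (X.map_comp _ _ _).symm)))

theorem FRep.iso (t : X.Tr Y) (ht : ∀ T : FP p k, Bijective (t.f (T := T))) (hX : X.FRep) :
    Y.FRep := by
  obtain ⟨ι, _, ⟨r⟩⟩ := hX
  refine .of r.U (fun i => t.f (r.u i)) r.exh (fun T y => ?_)
    (fun T i i' φ φ' h => r.idx ((ht T).1 ((t.map _ _).trans (h.trans (t.map _ _).symm))))
    fun T i φ φ' h => r.hom ((ht T).1 ((t.map _ _).trans (h.trans (t.map _ _).symm)))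
  obtain ⟨x, rfl⟩ := (ht T).2 y
  obtain ⟨i, φ, rfl⟩ := r.ex x
  exact ⟨i, φ, (t.map _ _).symm⟩

theorem FRep.part {J : Type} [Finite J] (d : ∀ {T : FP p k}, X.obj T → J)
    (hd : ∀ (T T' : FP p k) (φ : T.Hom T') x, d (X.map φ x) = d x)
    (h : ∀ j, (X.sub ⟨fun x => d x = j, fun φ _ h => (hd _ _ φ _).trans h⟩).FRep) : X.FRep := by
  choose ι hι r using h
  replace r := fun j => (r j).some
  refine .of (ι := Σ j, ι j) (fun i => (r i.1).U i.2) (fun i => ((r i.1).u i.2).1)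
    (fun i => (r i.1).exh _) (fun T x => ?_) ?_ fun T i φ φ' h => (r i.1).hom (Subtype.ext h)
  · obtain ⟨i, φ, e⟩ := (r (d x)).ex ⟨x, rfl⟩
    exact ⟨⟨_, i⟩, φ, congrArg Subtype.val e⟩
  · rintro T ⟨j, i⟩ ⟨j', i'⟩ φ φ' h
    obtain rfl : j = j' := ((hd _ _ φ _).trans ((r j).u i).2).symm.trans
      ((congrArg d h).trans ((hd _ _ φ' _).trans ((r j').u i').2))
    exact congrArg (Sigma.mk _) ((r j).idx (φ := φ) (φ' := φ') (Subtype.ext h))

/-- products of families -/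
def pi {J : Type} (X : J → PF p k) : PF p k where
  obj T := ∀ j, (X j).obj T
  map φ x j := (X j).map φ (x j)
  map_id T x := funext fun j => (X j).map_id T (x j)
  map_comp g f x := funext fun j => (X j).map_comp g f (x j)

/-- the projections -/
def piPr {J : Type} (X : J → PF p k) (j : J) : (pi X).Tr (X j) := ⟨fun x => x j, fun _ _ => rfl⟩

/-- functors with exactly one point -/
theorem FRep.one [Pf p k] (h : ∀ T, Nonempty (X.obj T)) (h' : ∀ T, Subsingleton (X.obj T)) :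
    X.FRep := by
  obtain ⟨U, h1, h2⟩ := exists_init (p := p) (k := k)
  exact .of (fun _ : Unit => U) (fun _ => (h U).some) (fun _ => h1)
    (fun T _ => ⟨(), (h2 T).1.some, (h' T).elim _ _⟩) (fun _ _ _ _ _ _ => rfl)
    fun T _ φ φ' _ => (h2 T).2 φ φ'

theorem FRep.pi [Pf p k] {J : Type} [Finite J] {X : J → PF p k} (h : ∀ j, (X j).FRep) :
    (pi X).FRep := by
  revert X
  refine Finite.induction_empty_option (P := fun J => ∀ {X : J → PF p k}, (∀ j, (X j).FRep) →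
    (PF.pi X).FRep) (fun {α β} e ih X h => ?_) (fun {X} _ => ?_) (fun {α} _ ih X h => ?_) J
  · refine .iso (X := PF.pi fun a => X (e a)) ⟨fun {T} x => e.piCongrLeft (fun b => (X b).obj T) x,
      fun φ x => funext fun b => ?_⟩ (fun T => (e.piCongrLeft fun b => (X b).obj T).bijective)
      (ih fun a => h (e a))
    obtain ⟨a, rfl⟩ := e.surjective b
    exact (Equiv.piCongrLeft_apply_apply _ _ _ _).trans (congrArg ((X (e a)).map φ)
      (Equiv.piCongrLeft_apply_apply (fun b => (X b).obj _) e x a).symm)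
  · exact .one (fun _ => ⟨fun j => j.elim⟩) fun _ => ⟨fun _ _ => funext fun j => j.elim⟩
  · refine .iso (X := (X none).prod (PF.pi fun a => X (some a)))
      ⟨fun {T} x => Equiv.piOptionEquivProd.symm x, fun φ x => funext fun b => ?_⟩
      (fun T => (Equiv.piOptionEquivProd (β := fun b => (X b).obj T)).symm.bijective)
      ((h none).prod (ih fun a => h (some a)))
    cases b <;> rfl

end PF

theorem SS.rep1 : SS.REP1 p k := fun _ =>
  ⟨fun _ _ => PF.FRep.prod, fun _ _ => PF.FRep.sub, fun _ _ => PF.FRep.iso,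
    fun _ _ _ => PF.FRep.part⟩

end P261
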