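import Vale.Agent.P261Z.S.Key
import Vale.Agent.P261Z.C1.Sys

/-!
# P261Z, block S: the inputs of block C1
-/

noncomputable section

namespace P261.SS

variable {p : ℕ} [Fact p.Prime] {k : Type} [Field k]

theorem c1_tog (hk : (p : k) = 0) (h : TOG p k) : C1.TOG p k := by
  intro S a κ P hP m₀ m₁ m₂ c q hq h0 h1 h2 he
  have H := (h hk S a κ P hP c m₂ m₀ m₁ h2 h0 h1 fun c' hc =>
    ⟨(he c' hc).2.symm, (he c' hc).1⟩).2 q hq
  exact ⟨fun a b => H.2.1 b a, fun a b => H.1 b a, H.2.2⟩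

theorem c1_secloc (hk : Pf p k) (h : SECLOC p k) : C1.SECLOC p k := by
  intro S κ P md R _ hS hR H
  refine h hk S κ P md R hS fun m T _ e z => (H m T z e).mono ?_
  rintro T' f ⟨c, hc, s, h1, h2, h3, h4⟩
  exact ⟨c, hc, hR c hc, s, ⟨h1, h2.1, h2.2⟩, h3, fun T'' g c' u hc' _ hu =>
    h4 T'' g c' u hc' hu.1 ⟨hu.2.1, hu.2.2⟩⟩

end P261.SS
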