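import Vale.Agent.P261Z.S.Test
import Vale.Agent.P261Z.Cs.Defs

/-!
# P261Z, block S: filtered complexes with an action, the complex of a system

* `FA p k`: a filtered object with operators `act s` for the natural numbers `s ≡ 1 mod p`;
* `FA.Nul`, `FA.AAc` (almost acyclic), `FA.Rat` (ratio), `FA.HC`, `FA.Good`;
* `Sys.cos`, `Sys.fil`, `CMap.hom`, `Sys.Act`, `Sys.fa`.
-/

noncomputable section

namespace P261

universe u v

open Cs

/-- filtered objects with operators -/
structure FA (p : ℕ) (k : Type) [Field k] where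
  /-- the object -/
  C : Cos.{u} k
  /-- the filtration -/
  F : ℝ → Cs.Sub C
  mono : ∀ {β β' : ℝ}, β ≤ β' → ∀ n, (F β).S n ≤ (F β').S n
  /-- the operators -/
  act : ℕ → Hom C C
  act_F : ∀ s β n, ∀ x ∈ (F β).S n, (act s).app n x ∈ (F β).S n
  act_one : ∀ n x, (act 1).app n x = x
  act_mul : ∀ s t, s % p = 1 → t % p = 1 → ∀ n x,
    (act (s * t)).app n x = (act s).app n ((act t).app n x)

namespace FA

variable {p : ℕ} {k : Type} [Field k] (A : FA.{u} p k)

/-- cocycles of degree `n` in the step `β` are boundaries of the step `β'` -/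
def Nul (n : ℕ) (β β' : ℝ) : Prop := NullOn (Hom.id A.C) (A.F β) (A.F β') n

/-- almost acyclic -/
def AAc : Prop := ∀ (n : ℕ) (β ε : ℝ), 0 ≤ β → 0 < ε → A.Nul n β (β + ε)

/-- the ratio statement -/
def Rat (n : ℕ) : Prop := ∃ ρ : ℝ, 1 ≤ ρ ∧ ∀ β ε : ℝ, 0 ≤ β → 0 < ε → A.Nul n β (ρ * β + ε)

/-- the operators `act (s ^ p ^ m)`, `s ≡ 1 mod p ^ e`, are trivial after a small shift -/
def HC (q n : ℕ) : Prop := ∃ (ρ : ℝ) (m : ℕ), 0 ≤ ρ ∧ ∀ e s : ℕ, 1 ≤ e → s % p ^ e = 1 →
  ∀ β ε : ℝ, 0 ≤ β → 0 < ε →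
    NullOn (A.act (s ^ p ^ m) - Hom.id A.C) (A.F β) (A.F (β + ρ * β / q ^ e + ε)) n

/-- ratio and small shift in all degrees -/
def Good (q : ℕ) : Prop := ∀ n, A.Rat n ∧ A.HC q n

/-- maps which are compatible with the filtrations and the operators -/
structure Map (A : FA.{u} p k) (B : FA.{v} p k) where
  /-- the map -/
  f : Hom A.C B.C
  mem : ∀ β n, ∀ x ∈ (A.F β).S n, f.app n x ∈ (B.F β).S n
  act : ∀ s, s % p = 1 → ∀ n x, f.app n ((A.act s).app n x) = (B.act s).app n (f.app n x)

/-- almost quasi isomorphisms -/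
structure Map.AQ {A : FA.{u} p k} {B : FA.{v} p k} (f : A.Map B) : Prop where
  inj : ∀ (n : ℕ) (β ε : ℝ), 0 ≤ β → 0 < ε → ∀ x ∈ (A.F β).S n, A.C.d n x = 0 →
    f.f.app n x ∈ (B.F β).bd n → x ∈ (A.F (β + ε)).bd n
  surj : ∀ (n : ℕ) (β ε : ℝ), 0 ≤ β → 0 < ε → ∀ y ∈ (B.F β).S n, B.C.d n y = 0 →
    ∃ x ∈ (A.F (β + ε)).S n, A.C.d n x = 0 ∧ y - f.f.app n x ∈ (B.F (β + ε)).bd n

/-- sequences which are short exact on every step -/
structure SE (K M Q : FA.{u} p k) where
  /-- the inclusion -/
  i : K.Map M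
  /-- the projection -/
  r : M.Map Q
  inj : ∀ n, Function.Injective (i.f.app n)
  surj : ∀ β n, ∀ y ∈ (Q.F β).S n, ∃ x ∈ (M.F β).S n, r.f.app n x = y
  zero : ∀ n x, r.f.app n (i.f.app n x) = 0
  exact : ∀ β n, ∀ x ∈ (M.F β).S n, r.f.app n x = 0 → ∃ y ∈ (K.F β).S n, i.f.app n y = x

end FA

variable {p : ℕ} [Fact p.Prime] {k : Type} [Field k]

namespace Sys

variable (S : Sys p k) {κ : Type} (P : κ → Col S.V) (md : κ → Mode)

/-- the complex of a system -/
@[reducible] def cos : Cos.{1} k where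
  X n := S.Fn P md (n + 1)
  map f := S.pull P md f
  map_id _ _ := rfl
  map_comp _ _ _ := rfl

/-- the filtration -/
def fil (β : ℝ) : Cs.Sub (S.cos P md) where
  S n := S.FnF P md β (n + 1)
  stab _ _ hx := fun T z => hx T (z.res _)

end Sys

/-- the map of complexes given by a map of configurations -/
def CMap.hom {S S' : Sys p k} {κ κ' : Type} {P : κ → Col S.V} {md : κ → Mode}
    {P' : κ' → Col S'.V} {md' : κ' → Mode} (F : CMap S S' P md P' md') :
    Hom (S'.cos P' md') (S.cos P md) where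
  app n := F.pull (n + 1)
  nat f x := Subtype.ext (funext fun T => funext fun z => congrArg (x.1 T) (F.res f z).symm)

namespace Sys

/-- commuting operators on the vertices -/
structure Act (S : Sys p k) : Type 1 where
  /-- the operators -/
  e : ℕ → S.Endo
  one : ∀ (T : FP p k) (v : S.V.obj T), (e 1).f v = v
  mul : ∀ s t, s % p = 1 → t % p = 1 → ∀ (T : FP p k) (v : S.V.obj T),
    (e (s * t)).f v = (e t).f ((e s).f v)

/-- the trivial operators -/
def Act.triv (S : Sys p k) : S.Act where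
  e _ := ⟨fun v => v, fun _ _ => rfl, fun h => h, fun h => h⟩
  one _ _ := rfl
  mul _ _ _ _ _ _ := rfl

/-- colours which are stable under the operators -/
def Act.Stab {S : Sys p k} (a : S.Act) (c : Col S.V) : Prop :=
  ∀ s (T : FP p k) (v : S.V.obj T), c.P v → c.P ((a.e s).f v)

variable (S : Sys p k) (a : S.Act) {κ : Type} (P : κ → Col S.V) (md : κ → Mode)

/-- the filtered complex with operators of a system -/
@[reducible] def fa (h : ∀ c, a.Stab (P c)) : FA.{1} p k where
  C := S.cos P md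
  F := S.fil P md
  mono hβ _ _ hx := fun T z => T.F.le (hx T z) hβ
  act s := ((a.e s).cmap P md fun c => h c s).hom
  act_F _ _ _ _ hx := fun T _ => hx T _
  act_one _ x := Subtype.ext (funext fun T => funext fun z => congrArg (x.1 T)
    (Conf.ext rfl (funext fun c => funext fun i => by
      show (z.w c i).map _ = _
      rw [show (a.e 1).f = id from funext (a.one T), Option.map_id, id])))
  act_mul s t hs ht _ x := Subtype.ext (funext fun T => funext fun z => congrArg (x.1 T)
    (Conf.ext rfl (funext fun c => funext fun i => by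
      show (z.w c i).map _ = ((z.w c i).map _).map _
      rw [Option.map_map]
      exact congrArg (fun g => Option.map g (z.w c i)) (funext (a.mul s t hs ht T)))))

/-- the complex of a system is almost acyclic -/
def AAc : Prop := (S.fa (Act.triv S) P md fun _ _ _ _ h => h).AAc

theorem aac_iff (h : ∀ c, a.Stab (P c)) : (S.fa a P md h).AAc ↔ S.AAc P md := Iff.rfl

end Sys

end P261
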