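import Vale.Agent.P261Z.S.Sk

/-!
# P261Z, block S: closure properties of `PF.Cut`
-/

set_option linter.all false

noncomputable section

namespace P261

variable {p : ℕ} [Fact p.Prime] {k : Type} [Field k]

namespace PF

variable {X Y : PF p k}

/-- the inclusion of a subfunctor -/
def subTr (X : PF p k) (D : Col X) : (X.sub D).Tr X := ⟨fun x => x.1, fun _ _ => rfl⟩

namespace Nf

/-- constants -/
def const (X : PF p k) (c : k) : X.Nf :=
  ⟨fun {T} _ => algebraMap k T.K c, fun φ _ => (φ.f.commutes c).symm⟩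

/-- natural numbers -/
def nat (X : PF p k) (n : ℕ) : X.Nf := ⟨fun _ => n, fun φ _ => (map_natCast φ.f n).symm⟩

/-- zero -/
def zero (X : PF p k) : X.Nf := ⟨fun _ => 0, fun φ _ => (map_zero φ.f).symm⟩

/-- one -/
def one (X : PF p k) : X.Nf := ⟨fun _ => 1, fun φ _ => (map_one φ.f).symm⟩

/-- sums -/
def add (g g' : X.Nf) : X.Nf :=
  ⟨fun x => g.f x + g'.f x, fun φ x => by rw [g.map, g'.map, map_add]⟩

/-- products -/
def mul (g g' : X.Nf) : X.Nf :=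
  ⟨fun x => g.f x * g'.f x, fun φ x => by rw [g.map, g'.map, map_mul]⟩

/-- differences -/
def sub (g g' : X.Nf) : X.Nf :=
  ⟨fun x => g.f x - g'.f x, fun φ x => by rw [g.map, g'.map, map_sub]⟩

/-- negatives -/
def neg (g : X.Nf) : X.Nf := ⟨fun x => -g.f x, fun φ x => by rw [g.map, map_neg]⟩

/-- powers -/
def pow (g : X.Nf) (n : ℕ) : X.Nf := ⟨fun x => g.f x ^ n, fun φ x => by rw [g.map, map_pow]⟩

/-- roots -/
def root (g : X.Nf) (n : ℕ) : X.Nf :=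
  ⟨fun {T} x => (rt p T.K ^ n) (g.f x), fun φ x => by
    rw [g.map]
    exact (map_rt_pow φ.r n _).symm⟩

/-- finite sums -/
def sum {ι : Type*} (s : Finset ι) (g : ι → X.Nf) : X.Nf :=
  ⟨fun x => ∑ i ∈ s, (g i).f x, fun φ x => by
    rw [map_sum]
    exact Finset.sum_congr rfl fun i _ => (g i).map φ x⟩

/-- finite products -/
def prod {ι : Type*} (s : Finset ι) (g : ι → X.Nf) : X.Nf :=
  ⟨fun x => ∏ i ∈ s, (g i).f x, fun φ x => by
    rw [map_prod]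
    exact Finset.prod_congr rfl fun i _ => (g i).map φ x⟩

/-- pull back -/
def comap (g : X.Nf) (t : Y.Tr X) : Y.Nf :=
  ⟨fun y => g.f (t.f y), fun φ y => by rw [t.map, g.map]⟩

/-- the coefficients of a natural Witt vector -/
def coeff (g : ∀ {T : FP p k}, X.obj T → T.W)
    (hg : ∀ (T T' : FP p k) (φ : T.Hom T') x, g (X.map φ x) = φ.w (g x)) (j : ℕ) : X.Nf :=
  ⟨fun x => (g x).coeff j, fun φ x => by
    rw [hg]
    exact WittVector.map_coeff _ _ _⟩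

open Classical in
/-- extension by zero -/
def ext0 {D : Col X} (hD : X.Disc D.P) (g : (X.sub D).Nf) : X.Nf :=
  ⟨fun x => if h : D.P x then g.f ⟨x, h⟩ else 0, fun φ x => by
    by_cases h : D.P x
    · rw [dif_pos h, dif_pos (D.map φ h)]
      exact g.map φ ⟨x, h⟩
    · rw [dif_neg h, dif_neg fun o => h ((hD _ _ φ x).1 o), map_zero]⟩

theorem ext0_pos {D : Col X} (hD : X.Disc D.P) (g : (X.sub D).Nf) {T : FP p k} {x : X.obj T}
    (h : D.P x) : (ext0 hD g).f x = g.f ⟨x, h⟩ := dif_pos h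

theorem ext0_neg {D : Col X} (hD : X.Disc D.P) (g : (X.sub D).Nf) {T : FP p k} {x : X.obj T}
    (h : ¬D.P x) : (ext0 hD g).f x = 0 := dif_neg h

end Nf

theorem Disc.const (X : PF p k) (P : Prop) : X.Disc fun _ => P := fun _ _ _ _ => Iff.rfl

namespace Cut

variable {D Q Q' : ∀ {T : FP p k}, X.obj T → Prop}

theorem disc (h : X.Disc D) : X.Cut D :=
  ⟨D, Empty, Empty, Empty.elim, Empty.elim, Empty.elim, h, fun _ _ =>
    ⟨fun h => ⟨h, fun j => j.elim, fun j => j.elim⟩, fun h => h.1⟩⟩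

theorem const (X : PF p k) (P : Prop) : X.Cut fun _ => P := disc (Disc.const X P)

theorem bound (g : X.Nf) (t : ℝ) : X.Cut fun {T} x => g.f x ∈ T.F.F t :=
  ⟨fun _ => True, Unit, Empty, fun _ => g, fun _ => t, Empty.elim, Disc.const X True, fun _ _ =>
    ⟨fun h => ⟨trivial, fun _ => h, fun j => j.elim⟩, fun h => h.2.1 ()⟩⟩

theorem eq (g g' : X.Nf) : X.Cut fun x => g.f x = g'.f x :=
  ⟨fun _ => True, Empty, Unit, Empty.elim, Empty.elim, fun _ => g.sub g', Disc.const X True,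
    fun _ _ => ⟨fun h => ⟨trivial, fun j => j.elim, fun _ => sub_eq_zero.2 h⟩,
      fun h => sub_eq_zero.1 (h.2.2 ())⟩⟩

theorem congr (h : ∀ T (x : X.obj T), Q x ↔ Q' x) (hQ : X.Cut Q) : X.Cut Q' :=
  let ⟨D, J, J', g, t, e, h1, h2⟩ := hQ
  ⟨D, J, J', g, t, e, h1, fun T x => (h T x).symm.trans (h2 T x)⟩

theorem all {J : Type} {Q : J → ∀ {T : FP p k}, X.obj T → Prop} (h : ∀ j, X.Cut (Q j)) :
    X.Cut fun x => ∀ j, Q j x := by
  choose D I I' g t e h1 h2 using h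
  refine ⟨fun x => ∀ j, D j x, Σ j, I j, Σ j, I' j, fun a => g a.1 a.2, fun a => t a.1 a.2,
    fun a => e a.1 a.2, fun T T' φ x => forall_congr' fun j => h1 j T T' φ x, fun T x => ?_⟩
  exact ⟨fun h => ⟨fun j => ((h2 j T x).1 (h j)).1, fun a => ((h2 _ T x).1 (h a.1)).2.1 a.2,
    fun a => ((h2 _ T x).1 (h a.1)).2.2 a.2⟩, fun h j =>
      (h2 j T x).2 ⟨h.1 j, fun i => h.2.1 ⟨j, i⟩, fun i => h.2.2 ⟨j, i⟩⟩⟩

theorem and (h : X.Cut Q) (h' : X.Cut Q') : X.Cut fun x => Q x ∧ Q' x := by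
  obtain ⟨D, I, I', g, t, e, h1, h2⟩ := h
  obtain ⟨D', J, J', g', t', e', h1', h2'⟩ := h'
  refine ⟨fun x => D x ∧ D' x, I ⊕ J, I' ⊕ J', Sum.elim g g', Sum.elim t t', Sum.elim e e',
    fun T T' φ x => and_congr (h1 T T' φ x) (h1' T T' φ x), fun T x => ?_⟩
  refine (and_congr (h2 T x) (h2' T x)).trans ?_
  rw [Sum.forall, Sum.forall]
  exact ⟨fun h => ⟨⟨h.1.1, h.2.1⟩, ⟨h.1.2.1, h.2.2.1⟩, h.1.2.2, h.2.2.2⟩,
    fun h => ⟨⟨h.1.1, h.2.1.1, h.2.2.1⟩, h.1.2, h.2.1.2, h.2.2.2⟩⟩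

theorem comap (t : Y.Tr X) (h : X.Cut Q) : Y.Cut fun y => Q (t.f y) := by
  obtain ⟨D, J, J', g, s, e, h1, h2⟩ := h
  refine ⟨fun y => D (t.f y), J, J', fun j => (g j).comap t, s, fun j => (e j).comap t,
    fun T T' φ y => ?_, fun T y => h2 T (t.f y)⟩
  show D (t.f (Y.map φ y)) ↔ D (t.f y)
  rw [t.map]
  exact h1 T T' φ _

theorem part {D : Col X} {Q : ∀ {T : FP p k}, (X.sub D).obj T → Prop} (hD : X.Disc D.P)
    (h : (X.sub D).Cut Q) : X.Cut fun x => ∀ h : D.P x, Q ⟨x, h⟩ := by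
  obtain ⟨D', J, J', g, t, e, h1, h2⟩ := h
  refine ⟨fun x => ∀ h : D.P x, D' ⟨x, h⟩, J, J', fun j => (g j).ext0 hD, t,
    fun j => (e j).ext0 hD, fun T T' φ x => ⟨fun h o => (h1 T T' φ ⟨x, o⟩).1 (h (D.map φ o)),
      fun h o => (h1 T T' φ ⟨x, (hD T T' φ x).1 o⟩).2 (h _)⟩, fun T x => ?_⟩
  by_cases o : D.P x
  · simp only [Nf.ext0_pos hD _ o]
    exact ⟨fun h => ⟨fun _ => ((h2 T _).1 (h o)).1, ((h2 T _).1 (h o)).2⟩,
      fun h _ => (h2 T _).2 ⟨h.1 o, h.2⟩⟩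
  · simp only [Nf.ext0_neg hD _ o]
    exact ⟨fun _ => ⟨fun h => absurd h o, fun _ => zero_mem _, fun _ => trivial⟩,
      fun _ h => absurd h o⟩

theorem imp (hD : X.Disc D) (h : X.Cut Q) : X.Cut fun x => D x → Q x :=
  part (D := ⟨D, fun φ x o => (hD _ _ φ x).2 o⟩) hD (comap (X.subTr _) h)

theorem wl (g : ∀ {T : FP p k}, X.obj T → T.W)
    (hg : ∀ (T T' : FP p k) (φ : T.Hom T') x, g (X.map φ x) = φ.w (g x)) (t : ℝ) :
    X.Cut fun {T} x => g x ∈ T.F.WL t :=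
  congr (fun _ _ => Fil.mem_WL.symm) (all fun j : ℕ => bound (Nf.coeff g hg j) (p ^ j * t))

theorem weq₂ (g g' : ∀ {T : FP p k}, X.obj T → T.W)
    (hg : ∀ (T T' : FP p k) (φ : T.Hom T') x, g (X.map φ x) = φ.w (g x))
    (hg' : ∀ (T T' : FP p k) (φ : T.Hom T') x, g' (X.map φ x) = φ.w (g' x)) :
    X.Cut fun x => g x = g' x :=
  congr (fun _ _ => ⟨fun h => WittVector.ext h, fun h j => congrArg (fun y => y.coeff j) h⟩)
    (all fun j : ℕ => eq (Nf.coeff g hg j) (Nf.coeff g' hg' j))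

theorem weq (g : ∀ {T : FP p k}, X.obj T → T.W)
    (hg : ∀ (T T' : FP p k) (φ : T.Hom T') x, g (X.map φ x) = φ.w (g x)) :
    X.Cut fun x => g x = 0 :=
  weq₂ g (fun _ => 0) hg fun _ _ φ _ => (map_zero φ.w).symm

theorem mw {I J : Type} (M : ∀ {T : FP p k}, X.obj T → Matrix I J T.W)
    (hM : ∀ (T T' : FP p k) (φ : T.Hom T') x, M (X.map φ x) = (M x).map φ.w) (t : ℝ) :
    X.Cut fun {T} x => T.F.MW t (M x) :=
  all fun i => all fun j => wl (fun x => M x i j)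
    (fun T T' φ x => congrFun (congrFun (hM T T' φ x) i) j) t

theorem meq {I J : Type} (M M' : ∀ {T : FP p k}, X.obj T → Matrix I J T.W)
    (hM : ∀ (T T' : FP p k) (φ : T.Hom T') x, M (X.map φ x) = (M x).map φ.w)
    (hM' : ∀ (T T' : FP p k) (φ : T.Hom T') x, M' (X.map φ x) = (M' x).map φ.w) :
    X.Cut fun x => M x = M' x :=
  congr (fun _ _ => Matrix.ext_iff) (all fun i => all fun j =>
    weq₂ (fun x => M x i j) (fun x => M' x i j)
      (fun T T' φ x => congrFun (congrFun (hM T T' φ x) i) j)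
      fun T T' φ x => congrFun (congrFun (hM' T T' φ x) i) j)

end Cut

end PF

namespace SS

theorem cut : CUT p k := fun _ =>
  ⟨fun _ => PF.Cut.disc, PF.Cut.bound, PF.Cut.eq, fun _ _ => PF.Cut.and, fun _ _ => PF.Cut.all,
    fun _ _ => PF.Cut.imp, fun _ _ => PF.Cut.part, fun _ _ => PF.Cut.congr,
    fun _ t _ => PF.Cut.comap t, fun g hg => ⟨PF.Cut.wl g hg, PF.Cut.weq g hg⟩⟩

end SS

end P261
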