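import Vale.Agent.P261Z.S.Sk

/-!
# P261Z, block S: configurations are representable
-/

noncomputable section

namespace P261.SS

open Function

variable {p : ℕ} [Fact p.Prime] {k : Type} [Field k]

namespace R44

/-- optional points -/
def opt (Y : PF p k) : PF p k where
  obj T := Option (Y.obj T)
  map φ y := y.map (Y.map φ)
  map_id T y := by rw [show Y.map (FP.Hom.id T) = id from funext (Y.map_id T), Option.map_id, id]
  map_comp g f y := by
    rw [Option.map_map]
    exact congrArg (fun h => Option.map h y) (funext (Y.map_comp g f))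

/-- products of families -/
def pi {J : Type} (X : J → PF p k) : PF p k where
  obj T := ∀ j, (X j).obj T
  map φ x j := (X j).map φ (x j)
  map_id T x := funext fun j => (X j).map_id T (x j)
  map_comp g f x := funext fun j => (X j).map_comp g f (x j)

/-- the inverse of a bijective natural map -/
def inv {X Y : PF p k} (t : X.Tr Y) (h : ∀ T : FP p k, Bijective (t.f (T := T))) : Y.Tr X where
  f {T} y := (Equiv.ofBijective _ (h T)).symm y
  map φ y := (h _).1 (((Equiv.ofBijective _ (h _)).apply_symm_apply _).trans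
    ((t.map φ _).trans (congrArg (Y.map φ) ((Equiv.ofBijective _ (h _)).apply_symm_apply y))).symm)

theorem some_map {α β : Type} (f : α → β) (x : Option α) :
    (x.map f).isSome = true ↔ x.isSome = true := by rw [Option.isSome_map]

theorem comap (hc : CUT p k) (Y : PF p k) {X : PF p k} (t : Y.Tr X)
    {Q : ∀ {T : FP p k}, X.obj T → Prop} (h : X.Cut Q) : Y.Cut fun y => Q (t.f y) :=
  (hc X).2.2.2.2.2.2.2.2.1 Y t Q h

/-- conditions on an optional point -/
theorem optcut (hc : CUT p k) {Z Y : PF p k} (o : Z.Tr (opt Y))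
    {Q : ∀ {T : FP p k}, (Z.prod Y).obj T → Prop} (h : (Z.prod Y).Cut Q) :
    Z.Cut fun z => ∀ y, o.f z = some y → Q (z, y) := by
  have d : Z.Disc fun z => Option.isSome (o.f z) = true := fun T T' φ z =>
    (congrArg (fun x => Option.isSome x = true) (o.map φ z)).to_iff.trans (some_map _ _)
  let D : Col Z := ⟨fun z => Option.isSome (o.f z) = true, fun φ _ h => (d _ _ φ _).2 h⟩
  let t : (Z.sub D).Tr (Z.prod Y) := ⟨fun z => (z.1, Option.get (o.f z.1) z.2), fun φ z =>
    Prod.ext rfl (Option.some_injective _ ((Option.some_get _).trans ((o.map φ z.1).trans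
      (congrArg (Option.map (Y.map φ)) (Option.some_get z.2).symm))))⟩
  refine (hc Z).2.2.2.2.2.2.2.1 _ _ (fun T z => ⟨fun h y hy => ?_, fun h hz => ?_⟩)
    ((hc Z).2.2.2.2.2.2.1 D _ d (comap hc _ t h))
  · have h1 := h (Option.isSome_of_eq_some hy)
    exact (Option.get_of_eq_some _ hy) ▸ h1
  · exact h _ (Option.some_get hz).symm

section Rep

variable (h1 : REP1 p k) (h0 : REP0 p k) (hk : Pf p k)
include h1 hk

theorem iso' {X Y : PF p k} (t : X.Tr Y) (h : ∀ T : FP p k, Bijective (t.f (T := T)))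
    (hY : Y.FRep) : X.FRep :=
  (h1 hk).2.2.1 Y X (inv t h) (fun T => (Equiv.ofBijective _ (h T)).symm.bijective) hY

include h0

theorem pt_rep {X : PF p k} (h : ∀ T, Nonempty (X.obj T) ∧ Subsingleton (X.obj T)) : X.FRep := by
  refine iso' h1 hk (Y := PF.base p k k) ⟨fun {T} _ => ⟨Algebra.ofId k T.K, T.k0⟩,
    fun φ _ => Subtype.ext (Subsingleton.elim _ _)⟩ (fun T => ⟨fun _ _ _ => (h T).2.elim _ _,
      fun b => ⟨(h T).1.some, Subtype.ext (Subsingleton.elim _ _)⟩⟩) ((h0 hk).1 k)

theorem opt_rep {Y : PF p k} (hY : Y.FRep) : (opt Y).FRep := by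
  refine (h1 hk).2.2.2 (opt Y) Bool Option.isSome (fun _ _ _ _ => Option.isSome_map) fun j => ?_
  cases j
  · exact pt_rep h1 h0 hk fun T => ⟨⟨⟨none, rfl⟩⟩, ⟨fun a b => Subtype.ext
      ((Option.isSome_eq_false_iff.1 a.2 |> Option.isNone_iff_eq_none.1).trans
        (Option.isSome_eq_false_iff.1 b.2 |> Option.isNone_iff_eq_none.1).symm)⟩⟩
  · exact (h1 hk).2.2.1 Y _ ⟨fun y => ⟨some y, rfl⟩, fun _ _ => rfl⟩ (fun T =>
      ⟨fun a b h => Option.some_injective _ (congrArg Subtype.val h),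
        fun y => ⟨Option.get y.1 y.2, Subtype.ext (Option.some_get _)⟩⟩) hY

theorem pi_rep (J : Type) [Finite J] : ∀ X : J → PF p k, (∀ j, (X j).FRep) → (pi X).FRep := by
  refine Finite.induction_empty_option (P := fun J => ∀ X : J → PF p k,
    (∀ j, (X j).FRep) → (pi X).FRep) (fun {α β} e ih X hX => ?_) (fun X _ => ?_)
    (fun {α} _ ih X hX => ?_) J
  · exact iso' h1 hk (Y := pi fun a => X (e a)) ⟨fun x a => x (e a), fun _ _ => rfl⟩
      (fun T => (Equiv.piCongrLeft (fun b => (X b).obj T) e).symm.bijective) (ih _ fun a => hX _)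
  · exact pt_rep h1 h0 hk fun T => ⟨⟨fun j => j.elim⟩, ⟨fun _ _ => funext fun j => j.elim⟩⟩
  · exact iso' h1 hk (Y := (X none).prod (pi fun a => X (some a)))
      ⟨fun x => (x none, fun a => x (some a)), fun _ _ => rfl⟩
      (fun T => (Equiv.piOptionEquivProd (β := fun b => (X b).obj T)).bijective)
      ((h1 hk).1 _ _ (hX none) (ih _ fun a => hX _))

end Rep

variable {S : Sys p k} {κ : Type} {P : κ → Col S.V} {md : κ → Mode} {n : ℕ}

/-- the vertex at a place, with its colour -/
def lift {T : FP p k} (z : S.Conf P md n T) (c : κ) (i : Fin n) :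
    Option ((S.V.sub (P c)).obj T) :=
  (z.w c i).pmap (fun v h => ⟨v, h⟩) fun v hv => (z.col c i v hv).1

theorem lift_val {T : FP p k} (z : S.Conf P md n T) (c : κ) (i : Fin n) :
    (lift z c i).map Subtype.val = z.w c i := by
  have : ∀ (x : Option (S.V.obj T)) (h : ∀ v, x = some v → (P c).P v),
      (x.pmap (fun v h => (⟨v, h⟩ : {v // (P c).P v})) h).map Subtype.val = x := fun x h => by
    cases x <;> rfl
  exact this _ _

theorem val_map {c : κ} {T T' : FP p k} (φ : T.Hom T') (y : Option ((S.V.sub (P c)).obj T)) :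
    (y.map ((S.V.sub (P c)).map φ)).map Subtype.val = (y.map Subtype.val).map (S.V.map φ) := by
  cases y <;> rfl

/-- the vertex at a place as a natural map -/
def liftT (md : κ → Mode) (c : κ) (i : Fin n) : (S.conf P md n).Tr (opt (S.V.sub (P c))) where
  f z := lift z c i
  map φ z := Option.map_injective Subtype.val_injective
    ((lift_val _ c i).trans ((val_map φ _).trans (congrArg _ (lift_val z c i))).symm)

variable (S P n) in
/-- the ambient functor -/
def amb : PF p k := S.X.prod (pi fun a : κ × Fin n => opt (S.V.sub (P a.1)))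

variable (md) in
/-- the conditions which define the configurations -/
def cnd : Col (amb S P n) where
  P z := ((∀ a y, z.2 a = some y → S.ok1 z.1 y.1) ∧
    ∀ a a' y, z.2 a = some y → ∀ y', z.2 a' = some y' → S.ok2 y.1 y'.1) ∧
    ∀ a : κ × Fin n, (md a.1 = .on → Option.isSome (z.2 a) = true) ∧
      (md a.1 = .off → z.2 a = none)
  map φ z h := ⟨⟨fun a y hy => by
      obtain ⟨u, hu, rfl⟩ := Option.map_eq_some_iff.1 hy
      exact S.ok1_map φ (h.1.1 a u hu), fun a a' y hy y' hy' => by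
      obtain ⟨u, hu, rfl⟩ := Option.map_eq_some_iff.1 hy
      obtain ⟨u', hu', rfl⟩ := Option.map_eq_some_iff.1 hy'
      exact S.ok2_map φ (h.1.2 a a' u hu u' hu')⟩,
    fun a => ⟨fun ha => (some_map _ _).2 ((h.2 a).1 ha),
      fun ha => Option.map_eq_none_iff.2 ((h.2 a).2 ha)⟩⟩

theorem cnd_cut (hc : CUT p k) (R : S.Rp P) : (amb S P n).Cut (cnd md).P := by
  let o : ∀ a : κ × Fin n, (amb S P n).Tr (opt (S.V.sub (P a.1))) := fun a =>
    ⟨fun z => z.2 a, fun _ _ => rfl⟩
  refine (hc _).2.2.2.1 _ _ ((hc _).2.2.2.1 _ _ ((hc _).2.2.2.2.1 _ _ fun a => ?_)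
    ((hc _).2.2.2.2.1 _ _ fun a => (hc _).2.2.2.2.1 _ _ fun a' => ?_)) ((hc _).1 _ ?_)
  · exact optcut hc (o a) (comap hc ((amb S P n).prod (S.V.sub (P a.1)))
      ⟨fun z => (z.1.1, z.2), fun _ _ => rfl⟩ (R.ok1 a.1))
  · exact optcut hc (o a) (optcut hc (Z := (amb S P n).prod (S.V.sub (P a.1)))
      (Y := S.V.sub (P a'.1)) ⟨fun z => z.1.2 a', fun _ _ => rfl⟩
      (comap hc (((amb S P n).prod (S.V.sub (P a.1))).prod (S.V.sub (P a'.1)))
        ⟨fun z => (z.1.2, z.2), fun _ _ => rfl⟩ (R.ok2 a.1 a'.1)))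
  · exact fun T T' φ z => forall_congr' fun a => and_congr
      (imp_congr_right fun _ => some_map _ _)
      (imp_congr_right fun _ => Option.map_eq_none_iff)

/-- configurations as points of the ambient functor -/
def toAmb (md : κ → Mode) (n : ℕ) : (S.conf P md n).Tr ((amb S P n).sub (cnd md)) where
  f z := ⟨(z.x, fun a => lift z a.1 a.2), ⟨fun _ _ hy =>
      (z.col _ _ _ ((lift_val z _ _).symm.trans (congrArg (Option.map Subtype.val) hy))).2,
    fun _ _ _ hy _ hy' =>
      z.ok _ _ _ _ _ _ ((lift_val z _ _).symm.trans (congrArg (Option.map Subtype.val) hy))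
        ((lift_val z _ _).symm.trans (congrArg (Option.map Subtype.val) hy'))⟩,
    fun _ => ⟨fun ha => (some_map Subtype.val _).1
        ((congrArg Option.isSome (lift_val z _ _)).trans (z.on _ _ ha)),
      fun ha => Option.map_eq_none_iff.1 ((lift_val z _ _).trans (z.off _ _ ha))⟩⟩
  map φ z := Subtype.ext (Prod.ext rfl (funext fun a => (liftT md a.1 a.2).map φ z))

theorem toAmb_bij (T : FP p k) : Bijective ((toAmb (P := P) md n).f (T := T)) := by
  refine ⟨fun z z' h => ?_, fun z => ⟨⟨z.1.1, fun c i => Option.map Subtype.val (z.1.2 (c, i)),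
    fun c i v hv => ?_, fun c i v c' i' v' hv hv' => ?_,
    fun c i h => (some_map _ _).2 ((z.2.2 (c, i)).1 h),
    fun c i h => Option.map_eq_none_iff.2 ((z.2.2 (c, i)).2 h)⟩, ?_⟩⟩
  · have h1 := congrArg Subtype.val h
    refine Sys.Conf.ext (congrArg Prod.fst h1) (funext fun c => funext fun i => ?_)
    exact (lift_val z c i).symm.trans ((congrArg (Option.map Subtype.val)
      (congrFun (congrArg Prod.snd h1) (c, i))).trans (lift_val z' c i))
  · obtain ⟨u, hu, rfl⟩ := Option.map_eq_some_iff.1 hv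
    exact ⟨u.2, z.2.1.1 _ u hu⟩
  · obtain ⟨u, hu, rfl⟩ := Option.map_eq_some_iff.1 hv
    obtain ⟨u', hu', rfl⟩ := Option.map_eq_some_iff.1 hv'
    exact z.2.1.2 _ _ u hu u' hu'
  · exact Subtype.ext (Prod.ext rfl (funext fun a =>
      Option.map_injective Subtype.val_injective (lift_val _ a.1 a.2)))

end R44

open R44 in
theorem rep2 (h1 : REP1 p k) (hc : CUT p k) (h0 : REP0 p k) : REP2 p k := by
  intro hk S κ P R
  have := R.fin
  have cf : ∀ md n, (S.conf P md n).FRep := fun md n =>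
    iso' h1 hk (toAmb md n) toAmb_bij ((h1 hk).2.1 _ _ ((h1 hk).1 _ _ R.base
      (pi_rep h1 h0 hk _ _ fun a => opt_rep h1 h0 hk (R.col a.1))) (cnd_cut hc R))
  refine ⟨cf, fun md n => (h1 hk).2.1 _ _ (cf md (n + 1)) ((hc _).1 _ fun T T' φ z =>
    not_congr ((S.cf P md).full_map φ z)), fun Y t hY => ⟨R.fin, hY, R.col, fun c => ?_, R.ok2⟩,
    fun md m => ⟨R.fin, cf md m, R.col, fun c => ?_, R.ok2⟩⟩
  · have := comap hc (Y.prod (S.V.sub (P c))) ⟨fun z => (t.f z.1, z.2), fun φ z =>
      congrArg (fun x => (x, (S.V.sub (P c)).map φ z.2)) (t.map φ z.1)⟩ (R.ok1 c)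
    exact this
  have e := comap hc ((S.conf P md m).prod (S.V.sub (P c)))
    ⟨fun z => (z.1.x, z.2), fun _ _ => rfl⟩ (R.ok1 c)
  refine (hc _).2.2.2.1 _ _ e ((hc _).2.2.2.2.1 _ _ fun c' => (hc _).2.2.2.2.1 _ _ fun i => ?_)
  refine (hc _).2.2.2.2.2.2.2.1 _ _ (fun T z => ⟨fun h u hu => ?_, fun h y hy => ?_⟩)
    (optcut hc (Z := (S.conf P md m).prod (S.V.sub (P c))) (Y := S.V.sub (P c'))
      ⟨fun z => lift z.1 c' i, fun φ z => (liftT md c' i).map φ z.1⟩
      ((hc _).2.2.2.1 _ _
        (comap hc (((S.conf P md m).prod (S.V.sub (P c))).prod (S.V.sub (P c')))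
          ⟨fun z => (z.2, z.1.2), fun _ _ => rfl⟩ (R.ok2 c' c))
        (comap hc (((S.conf P md m).prod (S.V.sub (P c))).prod (S.V.sub (P c')))
          ⟨fun z => (z.1.2, z.2), fun _ _ => rfl⟩ (R.ok2 c c'))))
  · obtain ⟨y, hy, rfl⟩ := Option.map_eq_some_iff.1 ((lift_val z.1 c' i).trans hu)
    exact h y hy
  · exact h y.1 ((lift_val z.1 c' i).symm.trans (congrArg (Option.map Subtype.val) hy))

end P261.SS
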