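import Vale.Agent.P261Z.S.All
import Vale.Agent.P261Z.C1.All
import Vale.Agent.P261Z.B7.StB
import Vale.Agent.P261Z.H.St

/-!
# P261Z, block S: the local term along the supersingular locus
-/

noncomputable section

namespace P261.SS.All

variable {p : ℕ} [Fact p.Prime] {k : Type} [Field k]

theorem stL_of (hk : Pf p k) (h : LOCAL p k) : StL p k :=
  C1.stC1_of hk tog (secloc h) (stHZ hk.char (@stH p _ k _ hk) (stB_of hk (secloc h)))

end P261.SS.All
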