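import Vale.Agent.P261Z.S.Sk
import Vale.Agent.P261Z.Cs.Htpy

/-!
# P261Z, block S: homotopies of configurations
-/

noncomputable section

namespace P261

open Function (update)

variable {p : ℕ} [Fact p.Prime] {k : Type} [Field k]

/-- the differential is computed pointwise -/
theorem CF.d_apply (C : CF p k) (n : ℕ) (g : C.Fn n) (T : FP p k) (z : (C.Z (n + 1)).obj T) :
    (C.cos.d n g).1 T z =
      ∑ i : Fin (n + 2), (-1 : k) ^ (i : ℕ) • g.1 T (C.res (Fin.succAbove i) z) := by
  rw [Cs.Cos.d, LinearMap.sum_apply, Submodule.coe_sum, Finset.sum_apply, Finset.sum_apply]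
  rfl

namespace SS

theorem ch : CH p k := fun C C' F₀ F₁ H h1 h2 h3 h4 h5 β n g hg hd => by
  let L : ∀ n, (Fin (n + 1) → Bool) → (C'.step β).cos.X n →ₗ[k] (C.step β).cos.X n := fun n χ =>
    { toFun := fun g => ⟨⟨fun T z => g.1.1 T (H n T χ z), fun T T' φ z => by
        show g.1.1 T' _ = φ.f (g.1.1 T _)
        rw [h1]
        exact g.1.2.1 T T' φ _, fun T z hz => g.1.2.2 T _ (h3 n T χ z hz)⟩, fun T _ => g.2 T _⟩
      map_add' := fun _ _ => rfl
      map_smul' := fun _ _ => rfl }
  have h := ((C.step β).mem_bd_iff n _).1 (Cs.htpy k _ _ L (fun m n f χ x => Subtype.ext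
    (Subtype.ext (funext fun T => funext fun z => congrArg (x.1.1 T) (h2 m n T f χ z).symm))) n
    ⟨g, hg⟩ (Subtype.ext (((C'.step β).coe_d n ⟨g, hg⟩).trans hd)))
  have e : F₁.pull.app n g - F₀.pull.app n g =
      (L n (fun _ => true) ⟨g, hg⟩ - L n (fun _ => false) ⟨g, hg⟩).1 :=
    Subtype.ext (funext fun T => funext fun z => by
      show g.1 T _ - g.1 T _ = g.1 T _ - g.1 T _
      rw [h4, h5])
  exact e ▸ h

namespace ChH

/-- retracts up to homotopy -/
def dom {C C' : CF p k} (a : C.Act) (a' : C'.Act) (G : C.Map C') (F : C'.Map C)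
    (h : ∀ β n, ∀ x ∈ (C.step β).S n, C.cos.d n x = 0 →
      (F.comp G).pull.app n x - x ∈ (C.step β).bd n)
    (e : ∀ s, s % p = 1 → ∀ n T (z : (C.Z n).obj T), G.f ((a.e s).f z) = (a'.e s).f (G.f z)) :
    (C.fa a).Dom (C'.fa a') where
  i := F.pull
  mem _ _ _ hx T _ := hx T _
  r := ⟨G.pull, fun _ _ _ hx T _ => hx T _, fun s hs n x =>
    Subtype.ext (funext fun T => funext fun z => congrArg (x.1 T) (e s hs n T z).symm)⟩
  ri := h

end ChH

theorem retract : RETRACT p k := fun C C' a a' G F h e =>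
  ⟨ChH.dom a a' G F (fun β n x _ _ => by
    rw [show (F.comp G).pull.app n x = x from
      Subtype.ext (funext fun T => funext fun z => congrArg (x.1 T) (h n T z)), sub_self]
    exact zero_mem _) e⟩

namespace ChH

open Classical

variable {S : Sys p k} {κ : Type} {P : κ → Col S.V} {md md' : κ → Mode} {n : ℕ} {T : FP p k}

/-- the vertices of the direction `c` are replaced at the places `χ` -/
def put (z : S.Conf P md n T) (c : κ) (χ : Fin n → Bool) (s : Fin n → S.V.obj T)
    (hc : md c = .red) (h1 : ∀ i, (P c).P (s i) ∧ S.ok1 z.x (s i)) (h2 : ∀ i j, S.ok2 (s i) (s j))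
    (h3 : ∀ i c' j u, z.w c' j = some u → S.ok2 (s i) u ∧ S.ok2 u (s i)) : S.Conf P md n T where
  x := z.x
  w c' i := if c' = c ∧ χ i then some (s i) else z.w c' i
  col c' i v h := by
    split_ifs at h with e
    · obtain rfl := Option.some.inj h
      exact e.1 ▸ h1 i
    · exact z.col c' i v h
  ok c' i v c'' j u h h' := by
    split_ifs at h h'
    · exact Option.some.inj h ▸ Option.some.inj h' ▸ h2 i j
    · exact Option.some.inj h ▸ (h3 i _ _ _ h').1
    · exact Option.some.inj h' ▸ (h3 j _ _ _ h).2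
    · exact z.ok _ _ _ _ _ _ h h'
  on c' i h := by
    split_ifs
    · rfl
    · exact z.on c' i h
  off c' i h := by
    rw [if_neg fun e => by simp [e.1, hc] at h]
    exact z.off c' i h

/-- the vertices of the direction `c` are removed at the places `χ` -/
def rem (z : S.Conf P md n T) (c : κ) (χ : Fin n → Bool)
    (h1 : ∀ c', md' c' = .on → c' ≠ c ∧ md c' = .on)
    (h2 : ∀ c' i, md' c' = .off → md c' = .off ∨ c' = c ∧ χ i) : S.Conf P md' n T where
  x := z.x
  w c' i := if c' = c ∧ χ i then none else z.w c' i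
  col c' i v h := by
    split_ifs at h
    exact z.col c' i v h
  ok c' i v c'' j u h h' := by
    split_ifs at h h'
    exact z.ok _ _ _ _ _ _ h h'
  on c' i h := by
    rw [if_neg fun e => (h1 c' h).1 e.1]
    exact z.on c' i (h1 c' h).2
  off c' i h := by
    split_ifs with e
    · rfl
    · exact z.off c' i ((h2 c' i h).resolve_right e)

theorem rem_full {z : S.Conf P md n T} {c : κ} {χ : Fin n → Bool} {h1 h2}
    (h3 : ∀ c', md c' = .red → c' ≠ c ∧ md' c' = .red) (h : z.Full) :
    (rem (md' := md') z c χ h1 h2).Full := by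
  obtain ⟨c', k1, k2⟩ := h
  refine ⟨c', (h3 c' k1).2, fun i => ?_⟩
  show (ite _ _ _ : Option _).isSome
  rw [if_neg fun e => (h3 c' k1).1 e.1]
  exact k2 i

theorem rem_false (z : S.Conf P md n T) (c : κ) (h1 h2) :
    (rem (md' := md') z c (fun _ => false) h1 h2).w = z.w :=
  funext fun _ => funext fun _ => if_neg fun e => nomatch e.2

theorem rem_rem (z : S.Conf P md n T) {c : κ} (hc : md c = .off) (h1 h2 h3 h4) :
    rem (rem (md' := md') z c (fun _ => false) h1 h2) c (fun _ => true) h3 h4 = z :=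
  Sys.Conf.ext rfl (funext fun c' => funext fun i => by
    show ite _ _ _ = _
    rw [rem_false]
    split_ifs with e
    · exact (z.off c' i (e.1 ▸ hc)).symm
    · rfl)

theorem rem_map {T' : FP p k} (φ : T.Hom T') (z : S.Conf P md n T) (c : κ) (χ : Fin n → Bool)
    (h1 h2) : rem (md' := md') (z.map φ) c χ h1 h2 = (rem z c χ h1 h2).map φ :=
  Sys.Conf.ext rfl (funext fun c' => funext fun i => by
    show ite _ _ _ = Option.map _ (ite _ _ _)
    split_ifs <;> rfl)

variable (P) in
/-- removing all or none of the vertices of the direction `c` -/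
def remM (c : κ) (b : Bool) (h1 : ∀ c', md' c' = .on → c' ≠ c ∧ md c' = .on)
    (h2 : ∀ c', md' c' = .off → md c' = .off ∨ c' = c ∧ b)
    (h3 : ∀ c', md c' = .red → c' ≠ c ∧ md' c' = .red) : (S.cf P md).Map (S.cf P md') where
  f z := rem z c (fun _ => b) h1 fun c' _ => h2 c'
  map φ z := rem_map φ z c _ _ _
  res _ _ := rfl
  full _ := rem_full h3

theorem remM_act (a : S.Act) (h : ∀ c, a.Stab (P c)) (c : κ) (b : Bool) (h1 h2 h3) (s : ℕ)
    (z : ((S.cf P md).Z n).obj T) :
    (remM (md' := md') P c b h1 h2 h3).f (((a.cf P md h).e s).f z) =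
      ((a.cf P md' h).e s).f ((remM P c b h1 h2 h3).f z) :=
  Sys.Conf.ext rfl (funext fun c' => funext fun i => by
    show ite _ _ _ = Option.map _ (ite _ _ _)
    split_ifs <;> rfl)

theorem upd [DecidableEq κ] {c c' : κ} {m m' m'' : Mode} (e : m ≠ m'') (h : update md c m c' = m'') :
    c' ≠ c ∧ update md c m' c' = m'' := by
  have : c' ≠ c := fun k => e (by simpa [k] using h)
  exact ⟨this, by simpa [this] using h⟩

end ChH

open ChH Classical

theorem sec : SEC p k := fun S κ P md c s hc h1 h2 h3 h4 h5 n β g hg hd => by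
  let H : ∀ (n : ℕ) (T : FP p k), (Fin (n + 1) → Bool) → ((S.cf P md).Z n).obj T →
      ((S.cf P md).Z n).obj T := fun n T χ z =>
    put z c χ (s n T z) hc (h3 n T z) (h4 n T z) (h5 n T z)
  have k1 : ∀ n (T T' : FP p k) (φ : T.Hom T') χ z,
      H n T' χ (((S.cf P md).Z n).map φ z) = ((S.cf P md).Z n).map φ (H n T χ z) :=
    fun n T T' φ χ z => Sys.Conf.ext rfl (funext fun c' => funext fun i => by
      show ite _ _ _ = Option.map _ (ite _ _ _)
      split_ifs
      · exact congrArg some (h1 n T T' φ z i)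
      · rfl)
  have k2 : ∀ m n T (f : Fin (m + 1) → Fin (n + 1)) χ z,
      H m T (χ ∘ f) ((S.cf P md).res f z) = (S.cf P md).res f (H n T χ z) :=
    fun m n T f χ z => Sys.Conf.ext rfl (funext fun c' => funext fun i =>
      if_congr Iff.rfl (congrArg some (h2 m n T f z i)) rfl)
  have k3 : ∀ n T χ z, (S.cf P md).Full z → (S.cf P md).Full (H n T χ z) :=
    fun n T χ z ⟨c', e1, e2⟩ => ⟨c', e1, fun i => by
      show (ite _ _ _ : Option _).isSome
      split_ifs
      · rfl
      · exact e2 i⟩
  let F : (S.cf P md).Map (S.cf P md) := ⟨fun z => H _ _ (fun _ => true) z,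
    fun φ z => k1 _ _ _ φ _ z, fun f z => k2 _ _ _ f (fun _ => true) z, fun z => k3 _ _ _ z⟩
  have h := ch _ _ (.id _) F H k1 k2 k3 (fun n T z => Sys.Conf.ext rfl
    (funext fun c' => funext fun i => if_neg fun e => nomatch e.2)) (fun _ _ _ => rfl) β n g hg hd
  rw [show F.pull.app n g = 0 from Subtype.ext (funext fun T => funext fun z =>
    g.2.2 T _ ⟨c, hc, fun i => by
      show (ite _ _ _ : Option _).isSome
      rw [if_pos ⟨rfl, rfl⟩]
      rfl⟩), zero_sub, neg_mem_iff] at h
  exact h

theorem opt : OPT p k := fun S a κ _ P md h c => by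
  have h1 : ∀ m m' c', m ≠ Mode.on → update md c m c' = .on → c' ≠ c ∧ update md c m' c' = .on :=
    fun _ _ _ => upd
  have h2 : ∀ c', update md c .opt c' = .off → update md c .off c' = .off ∨ c' = c ∧ false :=
    fun _ e => .inl (upd (by decide) e).2
  have h3 : ∀ c', update md c .off c' = .off → update md c .opt c' = .off ∨ c' = c ∧ true :=
    fun c' e => by
      by_cases k : c' = c
      · exact .inr ⟨k, rfl⟩
      · exact .inl (by simpa [k] using e)
  let I : (S.cf P (update md c .off)).Map (S.cf P (update md c .opt)) :=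
    remM P c false (fun _ => h1 _ _ _ nofun) h2 fun _ => upd (by decide)
  let J : (S.cf P (update md c .opt)).Map (S.cf P (update md c .off)) :=
    remM P c true (fun _ => h1 _ _ _ nofun) h3 fun _ => upd (by decide)
  exact ⟨⟨dom (a.cf P _ h) (a.cf P _ h) J I (fun β n => ch _ _ (.id _) (I.comp J)
    (fun n T χ z => rem z c χ (fun _ => h1 _ _ _ nofun) fun _ _ => .inl)
    (fun n T T' φ χ z => rem_map φ z c χ _ _) (fun _ _ _ _ _ _ => rfl)
    (fun _ _ _ _ => rem_full fun _ => upd (by decide))
    (fun n T z => Sys.Conf.ext rfl (rem_false z c _ _))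
    (fun n T z => Sys.Conf.ext rfl
      (rem_false (J.f z) c (fun _ => h1 .opt _ _ nofun) fun c' _ => h2 c').symm) β n)
    fun s _ n T z => remM_act a h c _ _ _ _ s z⟩,
    retract _ _ (a.cf P _ h) (a.cf P _ h) I J (fun n T z => rem_rem z (by simp)
      (fun _ => h1 .opt _ _ nofun) (fun c' _ => h2 c') (fun _ => h1 _ _ _ nofun) fun c' _ => h3 c')
      fun s _ n T z => remM_act a h c _ _ _ _ s z⟩

end SS

end P261
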