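import Vale.Agent.P261Z.S.Sk

/-!
# P261Z, block S: completions of perfect rings
-/

noncomputable section

namespace P261.SS

open AdicCompletion

variable {p : ℕ} [Fact p.Prime] {k : Type} [Field k]

namespace CplH

variable {C : Type} [CommRing C] [Pf p C] {I : Ideal C}

/-- the root is continuous -/
theorem ex_pow (hI : I.FG) :
    ∃ r, ∀ n, n ≤ r * n ∧ I ^ (r * n) ≤ (I ^ n).comap (rt p C) := by
  obtain ⟨r, hr⟩ := Ideal.exists_pow_le_of_le_radical_of_fg (J := I.comap (rt p C))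
    (fun x hx => ⟨p, by rwa [Ideal.mem_comap, rt_pow']⟩) hI
  refine ⟨r + 1, fun n => ⟨Nat.le_mul_of_pos_left n r.succ_pos, ?_⟩⟩
  rw [pow_mul]
  exact (Ideal.pow_right_mono ((Ideal.pow_le_pow_right r.le_succ).trans hr) n).trans
    (Ideal.le_comap_pow _ n)

theorem pf (hI : I.FG) : Pf p (AdicCompletion I C) := by
  obtain ⟨r, hr⟩ := ex_pow (p := p) hI
  have h1 : ∀ {m n : ℕ} (h : m ≤ n), (Ideal.Quotient.factorPow I h).comp
      ((Ideal.quotientMap _ _ (hr n).2).comp (evalₐ I (r * n) : AdicCompletion I C →+* _)) =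
      (Ideal.quotientMap _ _ (hr m).2).comp (evalₐ I (r * m) : AdicCompletion I C →+* _) :=
    fun {m n} h => RingHom.ext fun x => by
      obtain ⟨f, rfl⟩ := mk_surjective I C x
      simp only [RingHom.comp_apply, RingHom.coe_coe, evalₐ_mk]
      rw [← Ideal.mk_eq_mk I (Nat.mul_le_mul_left r h) f]
      rfl
  obtain ⟨ρ, h2⟩ : ∃ ρ : AdicCompletion I C →+* AdicCompletion I C, ∀ n x, evalₐ I n (ρ x) =
      Ideal.quotientMap _ _ (hr n).2 (evalₐ I (r * n) x) :=
    ⟨liftRingHom I _ h1, evalₐ_liftRingHom I _ h1⟩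
  refine { char := (Ch.of_hom (p := p) (algebraMap C _)).char
           bij := Function.bijective_iff_has_inverse.2 ⟨ρ, fun x => ?_, fun x => ?_⟩ } <;>
    obtain ⟨f, rfl⟩ := mk_surjective I C x <;> refine ext_evalₐ fun n => ?_
  · rw [h2, map_pow, evalₐ_mk, evalₐ_mk, ← map_pow, Ideal.quotientMap_mk, rt_pow']
    exact Ideal.mk_eq_mk I (hr n).1 f
  · rw [map_pow, h2, evalₐ_mk, evalₐ_mk, Ideal.quotientMap_mk, ← map_pow, rt_pow]
    exact Ideal.mk_eq_mk I (hr n).1 f

end CplH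

theorem cpl : CPL p := fun C _ _ I hI => by
  refine ⟨AdicCompletion I C, inferInstance, inferInstance, CplH.pf hI,
    (IsAdicComplete.map_algebraMap_iff I _).2 (isAdicComplete hI), fun d => ?_, fun c hc => ?_⟩
  · obtain ⟨c, hc⟩ := Ideal.Quotient.mk_surjective (evalOneₐ I d)
    refine ⟨c, ?_⟩
    rw [← ker_evalOneₐ_eq_map I hI, RingHom.sub_mem_ker_iff]
    exact hc.symm
  · rw [← ker_evalOneₐ_eq_map I hI] at hc
    exact Ideal.Quotient.eq_zero_iff_mem.1 hc

/-- the cover by a completion and the complement of the centre -/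
theorem _root_.P261.FLoc.cpl {T : FP p k} {P : (T' : FP p k) → T.Hom T' → Prop} (ι : Type)
    [Finite ι] (g : ι → T.F.zero)
    (h1 : ∀ (D : Type) [CommRing D] [Algebra T.F.zero D] [Pf p D],
      IsAdicComplete ((Ideal.span (Set.range g)).map (algebraMap T.F.zero D)) D →
      ∀ (T' : FP p k) (f : T.Hom T'), T'.F.Exh → FP.Over f D →
        FLoc T' fun T'' g => P T'' (g.comp f))
    (h2 : ∀ (T' : FP p k) (f : T.Hom T'), T'.F.Exh → (∃ i, ∃ t ∈ T'.F.F 0, f.f (g i) * t = 1) →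
      FLoc T' fun T'' g => P T'' (g.comp f)) : FLoc T P := by
  have : Pf p T.F.zero := Pf.subring _ fun x hx => T.F.root (t := 0) (by
    rw [rt_pow, mul_zero]
    exact hx)
  obtain ⟨D, _, _, _, a1, a2, a3⟩ := SS.cpl (p := p) T.F.zero (Ideal.span (Set.range g))
    (Submodule.fg_span (Set.finite_range g))
  exact .iso ι g D a2 a3 (h1 D a1) h2

end P261.SS
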