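import Vale.Agent.P261Z.S.Sk
import Vale.Agent.P261Z.H.PP

/-!
# P261Z, block S: reduction to marked universal points, base change
-/

noncomputable section

namespace P261.SS

open Function AddMonoidAlgebra

variable {p : ℕ} [hp : Fact p.Prime] {k : Type} [Field k]

namespace RetrA

variable (p) in
/-- multiplication by `p` on the real numbers -/
def mulP : ℝ ≃+ ℝ where
  toFun a := p • a
  invFun a := a / p
  left_inv a := by simp [(p_pos' (p := p)).ne']
  right_inv a := by simp [mul_div_cancel₀ _ (p_pos' (p := p)).ne']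
  map_add' a b := nsmul_add a b p

theorem single_mem {T : FP p k} {b m : ℝ} {x : T.K} (hx : x ∈ T.F.F (b + m)) (t : ℝ) :
    (single m x : AddMonoidAlgebra T.K ℝ).coeff t ∈ T.F.F (b + t) := by
  classical
  rw [coeff_single, Finsupp.single_apply]
  split_ifs with h
  · exact h ▸ hx
  · exact zero_mem _

/-- a marked unit is adjoined -/
def TR (T : FP p k) : FP p k where
  K := AddMonoidAlgebra T.K ℝ
  pf := Pf.monoidAlgebra (mulP p) fun _ => rfl
  F :=
    { F := fun b =>
        { carrier := {a | ∀ t, a.coeff t ∈ T.F.F (b + t)}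
          add_mem' := fun {x y} hx hy t => by simpa using add_mem (hx t) (hy t)
          zero_mem' := fun t => by simp
          neg_mem' := fun {x} hx t => by simpa using hx t }
      mono := fun _ _ h _ hx t => T.F.le (hx t) (by linarith)
      one_mem := single_mem (by simpa using T.F.one_mem)
      mul_mem := fun {s t x y} hx hy m => by
        rw [coeff_mul_apply_left]
        exact sum_mem fun a _ => T.F.mul_le (hx a) (hy (-a + m)) (by linarith)
      root := fun {t x} h m => T.F.root (by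
        have := h (p • m)
        rwa [coeff_pow_p (mulP p) fun _ => rfl, nsmul_eq_mul, ← mul_add] at this) }
  cl := fun t x h m => T.cl _ _ fun ε hε => T.F.le (h ε hε m) (by linarith)
  k0 c := single_mem (by simpa using T.k0 c)

/-- the inclusion -/
def io (T : FP p k) : T.Hom (TR T) :=
  ⟨singleZeroAlgHom, fun _ _ h => single_mem (by simpa using h)⟩

/-- functoriality -/
def tm {T T' : FP p k} (φ : T.Hom T') : (TR T).Hom (TR T') :=
  ⟨mapAlgHom ℝ φ.f, fun _ x h t => (coeff_mapAlgHom φ.f x t).symm ▸ φ.mem _ _ (h t)⟩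

theorem tm_io {T T' : FP p k} (φ : T.Hom T') : (tm φ).comp (io T) = (io T').comp φ :=
  FP.Hom.ext (AlgHom.ext fun x => mapAlgHom_single φ.f 0 x)

/-- the marked unit -/
def wm (T : FP p k) : (Gm p k).obj (TR T) :=
  ⟨⟨(single 1 1 : AddMonoidAlgebra T.K ℝ), (single (-1) 1 : AddMonoidAlgebra T.K ℝ),
    (single_mul_single _ _ _ _).trans (by simp; rfl),
    (single_mul_single _ _ _ _).trans (by simp; rfl)⟩,
    single_mem (by simpa using T.F.one_mem), single_mem (by simpa using T.F.one_mem)⟩

theorem tm_wm {T T' : FP p k} (φ : T.Hom T') : (Gm p k).map (tm φ) (wm T) = wm T' :=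
  Subtype.ext (Units.ext ((mapAlgHom_single φ.f (1 : ℝ) 1).trans (by rw [map_one]; rfl)))

/-- the coefficient of the trivial monomial -/
def c0 (T : FP p k) : (TR T).K →ₗ[k] T.K where
  toFun a := a.coeff 0
  map_add' a b := congrFun (congrArg DFunLike.coe (coeff_add a b)) 0
  map_smul' c a := congrFun (congrArg DFunLike.coe (coeff_smul c a)) 0

theorem c0_tm {T T' : FP p k} (φ : T.Hom T') (a : (TR T).K) : c0 T' ((tm φ).f a) = φ.f (c0 T a) :=
  coeff_mapAlgHom φ.f a 0

theorem c0_io (T : FP p k) (a : T.K) : c0 T ((io T).f a) = a := Finsupp.single_eq_same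

/-- products of complexes -/
@[reducible] def piC {ι : Type} (A : ι → Cs.Cos.{1} k) : Cs.Cos.{1} k where
  X n := ∀ i, (A i).X n
  map f := LinearMap.pi fun i => ((A i).map f).comp (LinearMap.proj i)
  map_id n _ := funext fun i => (A i).map_id n _
  map_comp f g _ := funext fun i => (A i).map_comp f g _

/-- the projections -/
def pr {ι : Type} (A : ι → Cs.Cos.{1} k) (i : ι) : Cs.Hom (piC A) (A i) :=
  ⟨fun _ => LinearMap.proj i, fun _ _ => rfl⟩

variable {X : PF p k} (C : CFO X) {ι : Type} (r : (X.prod (Gm p k)).MRep ι)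

/-- the local complexes -/
abbrev lc (i : ι) : CF p k := (C.loc (r.U i) (r.u i).1).toCF

/-- the map which forgets the base -/
def fg (i : ι) : (lc C r i).Map C.toCF :=
  ⟨fun z => z.1.2, fun _ _ => rfl, fun _ _ => rfl, fun _ h => h⟩

/-- restriction to the local complexes -/
def inc : Cs.Hom C.toCF.cos (piC fun i => (lc C r i).cos) :=
  ⟨fun n => LinearMap.pi fun i => (fg C r i).pull.app n, fun _ _ => rfl⟩

/-- the classifying map -/
def cl {T : FP p k} (x : X.obj T) : Σ i, (r.U i).Hom (TR T) :=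
  (r.lift (TR T) (X.map (io T) x, wm T)).choose

theorem cl_spec {T : FP p k} (x : X.obj T) :
    (X.prod (Gm p k)).map (cl r x).2 (r.u (cl r x).1) = (X.map (io T) x, wm T) :=
  (r.lift (TR T) (X.map (io T) x, wm T)).choose_spec.1

theorem cl_map {T T' : FP p k} (φ : T.Hom T') (x : X.obj T) :
    cl r (X.map φ x) = ⟨(cl r x).1, (tm φ).comp (cl r x).2⟩ := by
  refine ((r.lift (TR T') (X.map (io T') (X.map φ x), wm T')).choose_spec.2 _ ?_).symm
  show (X.prod (Gm p k)).map ((tm φ).comp (cl r x).2) (r.u (cl r x).1) = _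
  rw [PF.map_comp, cl_spec]
  exact Prod.ext (by
    show X.map _ (X.map _ x) = X.map _ (X.map _ x)
    rw [← X.map_comp, ← X.map_comp, tm_io]) (tm_wm φ)

/-- the local configuration -/
def pt {n : ℕ} {T : FP p k} (z : (C.Z n).obj T) (a : Σ i, (r.U i).Hom (TR T))
    (h : a = cl r (C.π z)) : ((lc C r a.1).Z n).obj (TR T) :=
  ⟨(a.2, (C.Z n).map (io T) z), (C.π_map _ _).trans (by
    subst h
    exact (congrArg Prod.fst (cl_spec r (C.π z))).symm)⟩

theorem pt_eq {n : ℕ} {T : FP p k} (y : ∀ i, (lc C r i).Fn n) (z : (C.Z n).obj T)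
    (a : Σ i, (r.U i).Hom (TR T)) (h : a = cl r (C.π z)) :
    (y _).1 _ (pt C r z _ rfl) = (y a.1).1 _ (pt C r z a h) := by
  subst h
  rfl

/-- the retraction -/
def ret : Cs.Hom (piC fun i => (lc C r i).cos) C.toCF.cos where
  app n :=
    { toFun := fun y => ⟨fun T z => c0 T ((y _).1 _ (pt C r z _ rfl)), fun T T' φ z => by
        show c0 T' _ = φ.f (c0 T _)
        rw [pt_eq C r y _ ⟨(cl r (C.π z)).1, (tm φ).comp (cl r (C.π z)).2⟩
          (by rw [C.π_map, cl_map]), ← c0_tm, ← (y _).2.1]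
        refine congrArg (fun w => c0 T' ((y (cl r (C.π z)).1).1 (TR T') w))
          (Subtype.ext (Prod.ext rfl ?_))
        show (C.Z n).map _ ((C.Z n).map _ z) = (C.Z n).map _ ((C.Z n).map _ z)
        rw [← PF.map_comp, ← PF.map_comp, tm_io], fun T z hz => by
        show c0 T _ = 0
        rw [(y _).2.2 _ (pt C r z _ rfl) ((C.full_map (io T) z).2 hz), map_zero]⟩
      map_add' := fun x y => Subtype.ext (funext fun T => funext fun z => map_add (c0 T) _ _)
      map_smul' := fun c x => Subtype.ext (funext fun T => funext fun z => map_smul (c0 T) _ _) }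
  nat f y := Subtype.ext (funext fun T => funext fun z => by
    show c0 T ((y _).1 _ _) = c0 T ((y _).1 _ (pt C r (C.res f z) _ rfl))
    rw [pt_eq C r y (C.res f z) (cl r (C.π z)) (by rw [C.π_res])]
    exact congrArg (fun w => c0 T ((y (cl r (C.π z)).1).1 (TR T) w))
      (Subtype.ext (Prod.ext rfl (C.res_map (io T) f z))))

theorem ret_inc (n : ℕ) (g : C.toCF.Fn n) : (ret C r).app n ((inc C r).app n g) = g :=
  Subtype.ext (funext fun T => funext fun z => by
    show c0 T (g.1 _ ((C.Z n).map (io T) z)) = g.1 T z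
    rw [g.2.1, c0_io])

theorem aac_of {C C' : CF p k} (G : C.Map C') (F : C'.Map C)
    (h : ∀ n T (z : (C.Z n).obj T), F.f (G.f z) = z) (hA : C'.AAc) : C.AAc := by
  intro n β ε hβ hε g hg hd
  have e : G.pull.app n (F.pull.app n g) = g :=
    Subtype.ext (funext fun T => funext fun z => congrArg (g.1 T) (h n T z))
  have k := hA n β ε hβ hε (F.pull.app n g) (fun T _ => hg T _) (F.pull.map_cocycle hd)
  show g ∈ _
  rw [← e]
  cases n with
  | zero =>
    rw [show F.pull.app 0 g = 0 from k, map_zero]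
    exact zero_mem _
  | succ n =>
    obtain ⟨y, hy, e'⟩ := k
    exact ⟨G.pull.app n y, fun T _ => hy T _,
      (G.pull.map_d n y).symm.trans (congrArg (G.pull.app (n + 1)) e')⟩

theorem frep_of {X Y : PF p k} (t : X.Tr Y) (ht : ∀ T : FP p k, Bijective (t.f (T := T)))
    (h : X.FRep) : Y.FRep := by
  obtain ⟨ι, hι, ⟨r⟩⟩ := h
  refine ⟨ι, hι, ⟨⟨r.U, fun i => t.f (r.u i), r.exh, fun T y => ?_⟩⟩⟩
  obtain ⟨x, rfl⟩ := (ht T).2 y
  simp only [← t.map, (ht T).1.eq_iff]
  exact r.lift T x

variable (S : Sys p k) {κ : Type} (P : κ → Col S.V) (md : κ → Mode) {Y : PF p k} (t : Y.Tr S.X)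

/-- from the base change of the system to the base change of the configurations -/
def up : ((S.bc t).cf P md).Map ((S.cfo P md).bc t).toCF where
  f z := ⟨(z.x, ⟨t.f z.x, z.w, z.col, z.ok, z.on, z.off⟩), rfl⟩
  map φ _ := Subtype.ext (Prod.ext rfl (Sys.Conf.ext (t.map φ _) rfl))
  res _ _ := rfl
  full _ h := h

/-- the inverse map -/
def down : ((S.cfo P md).bc t).toCF.Map ((S.bc t).cf P md) where
  f z := ⟨z.1.1, z.1.2.w, fun c i v h => ⟨(z.1.2.col c i v h).1, by
    have e : z.1.2.x = t.f z.1.1 := z.2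
    exact (e ▸ (z.1.2.col c i v h).2 : S.ok1 (t.f z.1.1) v)⟩, z.1.2.ok, z.1.2.on, z.1.2.off⟩
  map _ _ := rfl
  res _ _ := rfl
  full _ h := h

theorem up_down (n : ℕ) (T : FP p k) (z : (((S.cfo P md).bc t).toCF.Z n).obj T) :
    (up S P md t).f ((down S P md t).f z) = z :=
  Subtype.ext (Prod.ext rfl (Sys.Conf.ext z.2.symm rfl))

end RetrA

open RetrA

theorem retr : RETR p k := by
  intro X C ι r h n β ε hβ hε g hg hd
  have k := fun i => h i n β ε hβ hε ((fg C r i).pull.app n g) (fun T _ => hg T _)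
    ((fg C r i).pull.map_cocycle hd)
  show g ∈ _
  rw [← ret_inc C r n g]
  cases n with
  | zero =>
    rw [show (inc C r).app 0 g = 0 from funext fun i => k i, map_zero]
    exact zero_mem _
  | succ n =>
    choose y hy e using k
    refine ⟨(ret C r).app n y, fun T z => ?_, ((ret C r).map_d n y).symm.trans
      (congrArg ((ret C r).app (n + 1)) (funext fun i => ((pr _ i).map_d n y).trans (e i)))⟩
    have k : ∀ t, _ ∈ T.F.F (β + ε + t) := hy _ (TR T) (pt C r z _ rfl)
    exact T.F.le (k 0) (add_zero _).le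

theorem bceq : BCEQ p k := fun S _ P md _ t =>
  ⟨⟨aac_of (down S P md t) (up S P md t) (up_down S P md t),
    aac_of (up S P md t) (down S P md t) fun _ _ _ => rfl⟩, fun n =>
    frep_of ⟨fun z => ⟨(up S P md t).f z.1, z.2⟩, fun φ z => Subtype.ext ((up S P md t).map φ z.1)⟩
      fun T => ⟨fun _ _ e => Subtype.ext (congrArg (down S P md t).f (congrArg Subtype.val e)), fun z =>
        ⟨⟨(down S P md t).f z.1, z.2⟩, Subtype.ext (up_down S P md t n T z.1)⟩⟩⟩

end P261.SS
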