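import Vale.Agent.P261Z.S.Ch
import Vale.Agent.P261Z.Cs.All

/-!
# P261Z, block S: directions are moved into the base
-/

noncomputable section

namespace P261.SS

namespace Rw

open Cs

variable {p : ℕ} [Fact p.Prime] {k : Type} [Field k]
variable (S : Sys p k) {κ : Type} (P : κ → Col S.V) (m₁ m₂ : κ → Mode)

/-- configurations over configurations -/
abbrev Cf (m n : ℕ) (T : FP p k) : Type := (S.mv P m₁ (m + 1)).Conf P m₂ (n + 1) T

variable {S P m₁ m₂}

/-- restriction in both variables -/
def rs {m m' n n' : ℕ} {T : FP p k} (f : Fin (m + 1) → Fin (m' + 1))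
    (g : Fin (n + 1) → Fin (n' + 1)) (z : Cf S P m₁ m₂ m' n' T) : Cf S P m₁ m₂ m n T where
  x := Sys.Conf.res f z.x
  w c i := z.w c (g i)
  col c i v h := ⟨(z.col c (g i) v h).1, (z.col c (g i) v h).2.1,
    fun c' j u hu => (z.col c (g i) v h).2.2 c' (f j) u hu⟩
  ok c i v c' i' := z.ok c (g i) v c' (g i')
  on c i := z.on c (g i)
  off c i := z.off c (g i)

variable (S P m₁ m₂)

/-- the functions which vanish on the full base points -/
def sb (m n : ℕ) : Submodule k (((S.mv P m₁ (m + 1)).cf P m₂).Fn n) where
  carrier := {g | ∀ T (z : Cf S P m₁ m₂ m n T), Sys.Conf.Full z.x → g.1 T z = 0}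
  add_mem' := fun {a b} ha hb T z hz => by
    show a.1 T z + b.1 T z = 0
    rw [ha T z hz, hb T z hz, add_zero]
  zero_mem' := fun _ _ _ => rfl
  smul_mem' := fun c a ha T z hz => by
    show c • a.1 T z = 0
    rw [ha T z hz, smul_zero]

/-- the bi-object -/
@[reducible] def bi : Bi.{1} k where
  X m n := sb S P m₁ m₂ m n
  map f g :=
    { toFun := fun x => ⟨⟨fun T z => x.1.1 T (rs f g z), fun T T' φ z => x.1.2.1 T T' φ (rs f g z),
        fun T z hz => x.1.2.2 T _ (let ⟨c, hc, h⟩ := hz; ⟨c, hc, fun i => h (g i)⟩)⟩,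
        fun T z hz => x.2 T _ (hz.res f)⟩
      map_add' := fun _ _ => rfl
      map_smul' := fun _ _ => rfl }
  map_id _ _ _ := rfl
  map_comp _ _ _ _ _ := rfl

/-- the steps -/
def st (β : ℝ) : BiSub (bi S P m₁ m₂) where
  S m n := ((((S.mv P m₁ (m + 1)).cf P m₂).step β).S n).comap (sb S P m₁ m₂ m n).subtype
  stab _ _ _ hx T _ := hx T _

/-- the inclusion of a column -/
def inc (m : ℕ) : Hom ((bi S P m₁ m₂).col m) ((S.mv P m₁ (m + 1)).cf P m₂).cos :=
  ⟨fun n => (sb S P m₁ m₂ m n).subtype, fun _ _ => rfl⟩

open Classical in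
/-- the retraction to a column -/
def ret (m : ℕ) : Hom ((S.mv P m₁ (m + 1)).cf P m₂).cos ((bi S P m₁ m₂).col m) where
  app n :=
    { toFun := fun g => ⟨⟨fun T z => if Sys.Conf.Full (Sys.Conf.x z) then 0 else g.1 T z,
        fun T T' φ z => by
          have e := (S.cfo P m₁).full_map (n := m) φ (Sys.Conf.x z)
          by_cases h : Sys.Conf.Full (Sys.Conf.x z)
          · exact (if_pos (e.2 h)).trans ((map_zero φ.f).symm.trans (congrArg φ.f (if_pos h).symm))
          · exact (if_neg (fun h' => h (e.1 h'))).trans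
              ((g.2.1 T T' φ z).trans (congrArg φ.f (if_neg h).symm)),
        fun T z hz => by
          show (if _ then _ else _) = _
          rw [g.2.2 T z hz, ite_self]⟩, fun T z hz => if_pos hz⟩
      map_add' := fun a b => Subtype.ext (Subtype.ext (funext fun T => funext fun z => by
        show (if _ then _ else a.1 T z + b.1 T z) = (if _ then _ else _) + (if _ then _ else _)
        split_ifs
        · rw [add_zero]
        · rfl))
      map_smul' := fun c a => Subtype.ext (Subtype.ext (funext fun T => funext fun z => by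
        show (if _ then _ else c • a.1 T z) = c • (if _ then _ else _)
        split_ifs
        · rw [smul_zero]
        · rfl)) }
  nat _ _ := rfl

theorem ret_inc (m n : ℕ) (x : ((bi S P m₁ m₂).col m).X n) :
    (ret S P m₁ m₂ m).app n ((inc S P m₁ m₂ m).app n x) = x :=
  Subtype.ext (Subtype.ext (funext fun T => funext fun z => by
    by_cases h : Sys.Conf.Full (Sys.Conf.x z)
    · exact (if_pos h).trans (x.2 T z h).symm
    · exact if_neg h))

theorem bd_map {A B : Cos.{1} k} (f : Hom A B) {Q : Cs.Sub A} {Q' : Cs.Sub B}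
    (h : ∀ n, ∀ x ∈ Q.S n, f.app n x ∈ Q'.S n) {n : ℕ} {x : A.X n} (hx : x ∈ Q.bd n) :
    f.app n x ∈ Q'.bd n := by
  cases n with
  | zero =>
    have : x = 0 := hx
    rw [this, map_zero]
    exact zero_mem _
  | succ n =>
    obtain ⟨y, hy, rfl⟩ := hx
    exact ⟨f.app n y, h n y hy, (f.map_d n y).symm⟩

theorem col_nul {m j : ℕ} {β β' : ℝ}
    (h : (((S.mv P m₁ (m + 1)).cf P m₂).fa (CF.Act.triv _)).Nul j β β') :
    NullOn (Hom.id ((bi S P m₁ m₂).col m)) ((st S P m₁ m₂ β).col m) ((st S P m₁ m₂ β').col m) j := by
  intro x hx hd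
  have h1 := h ((inc S P m₁ m₂ m).app j x) hx ((inc S P m₁ m₂ m).map_cocycle hd)
  have h2 := bd_map (ret S P m₁ m₂ m) (Q' := (st S P m₁ m₂ β').col m) (fun n y hy T z => by
    by_cases h : Sys.Conf.Full (Sys.Conf.x z)
    · exact (congrArg (· ∈ T.F.F β') (if_pos h)).mpr (zero_mem _)
    · exact (congrArg (· ∈ T.F.F β') (if_neg h)).mpr (hy T z)) h1
  exact (ret_inc S P m₁ m₂ m j x) ▸ h2

variable {S P} (md : κ → Mode) (D : κ → Prop) [DecidablePred D]

/-- the union of the two configurations -/
def glue {n : ℕ} {T : FP p k} (z : Cf S P (Sys.keep md D) (Sys.drop md D) n n T) :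
    S.Conf P md (n + 1) T where
  x := Sys.Conf.x z.x
  w c i := if D c then Sys.Conf.w z.x c i else z.w c i
  col c i v h := by
    by_cases hc : D c
    · exact Sys.Conf.col z.x c i v ((if_pos hc).symm.trans h)
    · exact ⟨(z.col c i v ((if_neg hc).symm.trans h)).1,
        (z.col c i v ((if_neg hc).symm.trans h)).2.1⟩
  ok c i v c' i' v' h h' := by
    by_cases hc : D c <;> by_cases hc' : D c'
    · exact Sys.Conf.ok z.x c i v c' i' v' ((if_pos hc).symm.trans h) ((if_pos hc').symm.trans h')
    · exact ((z.col c' i' v' ((if_neg hc').symm.trans h')).2.2 c i v ((if_pos hc).symm.trans h)).1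
    · exact ((z.col c i v ((if_neg hc).symm.trans h)).2.2 c' i' v' ((if_pos hc').symm.trans h')).2
    · exact z.ok c i v c' i' v' ((if_neg hc).symm.trans h) ((if_neg hc').symm.trans h')
  on c i h := by
    by_cases hc : D c
    · exact (congrArg Option.isSome (if_pos hc)).trans (Sys.Conf.on z.x c i ((if_pos hc).trans h))
    · exact (congrArg Option.isSome (if_neg hc)).trans (z.on c i ((if_neg hc).trans h))
  off c i h := by
    by_cases hc : D c
    · exact (if_pos hc).trans (Sys.Conf.off z.x c i ((if_pos hc).trans h))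
    · exact (if_neg hc).trans (z.off c i ((if_neg hc).trans h))

theorem sel {α : Type} {q : Prop} [Decidable q] {o : Option α} {v : α}
    (h : (if q then o else none) = some v) : o = some v := by
  split_ifs at h
  exact h

theorem sel' {α : Type} {q : Prop} [Decidable q] {o : Option α} {v : α}
    (h : (if q then none else o) = some v) : o = some v := by
  split_ifs at h
  exact h

/-- the two parts of a configuration -/
def split {n : ℕ} {T : FP p k} (z : S.Conf P md (n + 1) T) :
    Cf S P (Sys.keep md D) (Sys.drop md D) n n T where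
  x :=
    { x := z.x
      w := fun c i => if D c then z.w c i else none
      col := fun c i v h => z.col c i v (sel h)
      ok := fun c i v c' i' v' h h' => z.ok c i v c' i' v' (sel h) (sel h')
      on := fun c i h => by
        by_cases hc : D c
        · rw [if_pos hc]
          exact z.on c i ((if_pos hc).symm.trans h)
        · exact absurd ((if_neg hc).symm.trans h) (by decide)
      off := fun c i h => by
        by_cases hc : D c
        · rw [if_pos hc]
          exact z.off c i ((if_pos hc).symm.trans h)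
        · exact if_neg hc }
  w c i := if D c then none else z.w c i
  col c i v h := ⟨(z.col c i v (sel' h)).1, (z.col c i v (sel' h)).2, fun c' j u hu =>
    ⟨z.ok c' j u c i v (sel hu) (sel' h), z.ok c i v c' j u (sel' h) (sel hu)⟩⟩
  ok c i v c' i' v' h h' := z.ok c i v c' i' v' (sel' h) (sel' h')
  on c i h := by
    by_cases hc : D c
    · exact absurd ((if_pos hc).symm.trans h) (by decide)
    · exact (congrArg Option.isSome (if_neg hc)).trans (z.on c i ((if_neg hc).symm.trans h))
  off c i h := by
    by_cases hc : D c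
    · exact if_pos hc
    · exact (if_neg hc).trans (z.off c i ((if_neg hc).symm.trans h))

theorem glue_split {n : ℕ} {T : FP p k} (z : S.Conf P md (n + 1) T) :
    glue md D (split md D z) = z :=
  Sys.Conf.ext rfl (funext fun c => funext fun i => by
    by_cases hc : D c
    · exact (if_pos hc).trans (if_pos hc)
    · exact (if_neg hc).trans (if_neg hc))

theorem glue_map {n : ℕ} {T T' : FP p k} (φ : T.Hom T')
    (z : Cf S P (Sys.keep md D) (Sys.drop md D) n n T) :
    glue md D (z.map φ) = (glue md D z).map φ :=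
  Sys.Conf.ext rfl (funext fun c => funext fun i =>
    (apply_ite (Option.map (S.V.map φ)) (D c) _ _).symm)

theorem split_map {n : ℕ} {T T' : FP p k} (φ : T.Hom T') (z : S.Conf P md (n + 1) T) :
    split md D (z.map φ) = (split md D z).map φ :=
  Sys.Conf.ext (Sys.Conf.ext rfl (funext fun c => funext fun i =>
    (apply_ite (Option.map (S.V.map φ)) (D c) (z.w c i) none).symm))
    (funext fun c => funext fun i =>
      (apply_ite (Option.map (S.V.map φ)) (D c) none (z.w c i)).symm)

variable (S P)

/-- pull back along `glue` -/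
def pg : Hom (S.cos P md) (bi S P (Sys.keep md D) (Sys.drop md D)).diag where
  app n :=
    { toFun := fun g => ⟨⟨fun T z => g.1 T (glue md D z), fun T T' φ z =>
        (congrArg (g.1 T') (glue_map md D φ z)).trans (g.2.1 T T' φ _), fun T z ⟨c, hc, h⟩ =>
          g.2.2 T _ (by
            have hn : ¬D c := fun e => absurd ((if_pos e).symm.trans hc) (by decide)
            exact ⟨c, (if_neg hn).symm.trans hc, fun i =>
              (congrArg Option.isSome (if_neg hn)).trans (h i)⟩)⟩,
        fun T z ⟨c, hc, h⟩ => g.2.2 T _ (by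
          have hp : D c := by
            by_contra e
            exact absurd ((if_neg e).symm.trans hc) (by decide)
          exact ⟨c, (if_pos hp).symm.trans hc, fun i =>
            (congrArg Option.isSome (if_pos hp)).trans (h i)⟩)⟩
      map_add' := fun _ _ => rfl
      map_smul' := fun _ _ => rfl }
  nat _ _ := rfl

/-- pull back along `split` -/
def ps : Hom (bi S P (Sys.keep md D) (Sys.drop md D)).diag (S.cos P md) where
  app n :=
    { toFun := fun g => ⟨fun T z => g.1.1 T (split md D z), fun T T' φ z =>
        (congrArg (g.1.1 T') (split_map md D φ z)).trans (g.1.2.1 T T' φ _),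
        fun T z ⟨c, hc, h⟩ => by
          by_cases e : D c
          · exact g.2 T _ ⟨c, (if_pos e).trans hc, fun i =>
              (congrArg Option.isSome (if_pos e)).trans (h i)⟩
          · exact g.1.2.2 T _ ⟨c, (if_neg e).trans hc, fun i =>
              (congrArg Option.isSome (if_neg e)).trans (h i)⟩⟩
      map_add' := fun _ _ => rfl
      map_smul' := fun _ _ => rfl }
  nat _ _ := rfl

theorem row_nul (s : ℕ) (b : ℕ → ℝ) (hb : ∀ i, b i ≤ b (i + 1))
    (h : ∀ i ≤ s, ∀ m, ∀ j ≤ s, (((S.mv P (Sys.keep md D) (m + 1)).cf P (Sys.drop md D)).fa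
      (CF.Act.triv _)).Nul j (b i) (b (i + 1))) :
    NullOn (Hom.id (S.cos P md)) (S.fil P md (b 0)) (S.fil P md (b (s + 1))) s := by
  intro x hx hd
  have h1 := All.ghostsub k (bi S P (Sys.keep md D) (Sys.drop md D))
    (fun i => st S P _ _ (b i)) s (fun i m n y hy T z => T.F.le (hy T z) (hb i))
    (fun i hi m j hj => col_nul S P _ _ (h i hi m j hj)) ((pg S P md D).app s x)
    (fun T z => hx T _) ((pg S P md D).map_cocycle hd)
  have h2 := bd_map (ps S P md D) (Q := (st S P _ _ (b (s + 1))).diag)
    (Q' := S.fil P md (b (s + 1))) (fun n y hy T z => hy T _) h1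
  have e : (ps S P md D).app s ((pg S P md D).app s x) = x :=
    Subtype.ext (funext fun T => funext fun z => congrArg (x.1 T) (glue_split md D z))
  exact e ▸ h2

end Rw

theorem row' {p : ℕ} [Fact p.Prime] {k : Type} [Field k] : ROW p k := by
  intro S κ P md D _ h s β ε hβ hε
  have hs : (0 : ℝ) < s + 1 := by positivity
  have H := Rw.row_nul S P md D s (fun i => β + i * (ε / (s + 1)))
    (fun i => by
      have : 0 ≤ ε / (s + 1) := by positivity
      push_cast
      linarith)
    (fun i _ m j _ => by
      have := h m j (β + i * (ε / (s + 1))) (ε / (s + 1)) (by positivity) (by positivity)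
      rwa [show β + i * (ε / (s + 1)) + ε / (s + 1) = β + ((i + 1 : ℕ) : ℝ) * (ε / (s + 1)) by
        push_cast; ring] at this)
  have e0 : β + ((0 : ℕ) : ℝ) * (ε / (s + 1)) = β := by simp
  have e1 : β + ((s + 1 : ℕ) : ℝ) * (ε / (s + 1)) = β + ε := by
    push_cast
    field_simp
  simp only [e0, e1] at H
  exact H

end P261.SS
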