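import Vale.Agent.P261Z.S.Sk

/-!
# P261Z, block S: changing the mode of a direction, renaming directions
-/

noncomputable section

namespace P261.SS

open Function

variable {p : ℕ} [Fact p.Prime] {k : Type} [Field k]

namespace TogA

variable {S : Sys p k} {κ κ' : Type} {P : κ → Col S.V} {P' : κ' → Col S.V} {md md₁ : κ → Mode}
  {md' : κ' → Mode}

/-- the same configuration for other modes -/
def cst {n : ℕ} {T : FP p k} (z : S.Conf P md n T)
    (hon : ∀ c i, md₁ c = .on → (z.w c i).isSome) (hoff : ∀ c i, md₁ c = .off → z.w c i = none) :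
    S.Conf P md₁ n T := ⟨z.x, z.w, z.col, z.ok, hon, hoff⟩

/-- the map of configurations which changes the modes -/
def cm (h1 : ∀ c, md₁ c = .on → md c = .on) (h2 : ∀ c, md₁ c = .off → md c = .off)
    (h3 : ∀ c, md c = .red → md₁ c = .red) : CMap S S P md P md₁ where
  f z := cst z (fun c i h => z.on c i (h1 c h)) fun c i h => z.off c i (h2 c h)
  map _ _ := rfl
  res _ _ := rfl
  full _ := fun ⟨c, hc, hz⟩ => ⟨c, h3 c hc, hz⟩

/-- the map of filtered complexes -/
def fm (a : S.Act) (h : ∀ c, a.Stab (P c)) (h1 : ∀ c, md₁ c = .on → md c = .on)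
    (h2 : ∀ c, md₁ c = .off → md c = .off) (h3 : ∀ c, md c = .red → md₁ c = .red) :
    (S.fa a P md₁ h).Map (S.fa a P md h) where
  f := (cm h1 h2 h3).hom
  mem _ _ _ hx T _ := hx T _
  act _ _ _ _ := rfl

theorem upd [DecidableEq κ] (md : κ → Mode) (c : κ) {m m' t : Mode} (h : m = t → m' = t) (c' : κ)
    (e : update md c m c' = t) : update md c m' c' = t := by
  by_cases k : c' = c
  · subst k
    rw [update_self] at e ⊢
    exact h e
  · rwa [update_of_ne k] at e ⊢

/-- a configuration in which the direction `c` is filled -/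
def toOn [DecidableEq κ] {c : κ} {m : Mode} {n : ℕ} {T : FP p k} (z : S.Conf P (update md c m) n T)
    (hz : ∀ i, (z.w c i).isSome) : S.Conf P (update md c .on) n T :=
  cst z (fun c' i o => by
    by_cases k : c' = c
    · exact k ▸ hz i
    · rw [update_of_ne k] at o
      exact z.on c' i ((update_of_ne k _ _).trans o))
    fun c' i o => z.off c' i (upd md c (by nofun) c' o)

variable {e : κ → κ'}

theorem ext_some {A : Type} {n : ℕ} (he : Injective e) {w : κ → Fin n → Option A} {c' : κ'}
    {i : Fin n} {v : A} (h : extend e w (fun _ _ => none) c' i = some v) :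
    ∃ c, c' = e c ∧ w c i = some v := by
  by_cases k : ∃ c, e c = c'
  · obtain ⟨c, rfl⟩ := k
    exact ⟨c, rfl, by rwa [he.extend_apply] at h⟩
  · rw [extend_apply' _ _ _ k] at h
    cases h

theorem ext_map {A B : Type} {m n : ℕ} (he : Injective e) (w : κ → Fin n → Option A) (f : A → B)
    (g : Fin m → Fin n) : (extend e (fun c i => (w c (g i)).map f) fun _ _ => none) =
      fun c' i => (extend e w (fun _ _ => none) c' (g i)).map f := by
  funext c' i
  by_cases k : ∃ c, e c = c'
  · obtain ⟨c, rfl⟩ := k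
    rw [he.extend_apply, he.extend_apply]
  · rw [extend_apply' _ _ _ k, extend_apply' _ _ _ k]
    rfl

/-- extension by empty directions -/
def up (he : Injective e) (h1 : ∀ c, md' (e c) = md c) (h2 : ∀ c', c' ∉ Set.range e → md' c' = .off)
    (h3 : ∀ c, md c ≠ .off → ∀ (T : FP p k) (v : S.V.obj T), (P c).P v ↔ (P' (e c)).P v) :
    CMap S S P md P' md' where
  f z := ⟨z.x, extend e z.w fun _ _ => none,
    fun c' i v hv => by
      obtain ⟨c, rfl, hc⟩ := ext_some he hv
      exact ⟨(h3 c (fun o => by rw [z.off c i o] at hc; cases hc) _ v).1 (z.col c i v hc).1,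
        (z.col c i v hc).2⟩,
    fun c' i v d' j u hv hu => by
      obtain ⟨c, rfl, hc⟩ := ext_some he hv
      obtain ⟨d, rfl, hd⟩ := ext_some he hu
      exact z.ok c i v d j u hc hd,
    fun c' i o => by
      by_cases k : c' ∈ Set.range e
      · obtain ⟨c, rfl⟩ := k
        rw [he.extend_apply]
        exact z.on c i (h1 c ▸ o)
      · exact absurd ((h2 c' k).symm.trans o) (by nofun),
    fun c' i o => by
      by_cases k : ∃ c, e c = c'
      · obtain ⟨c, rfl⟩ := k
        rw [he.extend_apply]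
        exact z.off c i (h1 c ▸ o)
      · rw [extend_apply' _ _ _ k]⟩
  map φ z := Sys.Conf.ext rfl (ext_map he z.w (S.V.map φ) id)
  res g z := Sys.Conf.ext rfl (by
    have := ext_map he z.w id g
    simp only [Option.map_id_fun, id] at this
    exact this)
  full z := fun ⟨c, hc, hz⟩ => ⟨e c, (h1 c).trans hc, fun i => by
    show (extend e z.w (fun _ _ => none) (e c) i).isSome
    rw [he.extend_apply]
    exact hz i⟩

/-- restriction to the directions in the image -/
def down (h1 : ∀ c, md' (e c) = md c) (h2 : ∀ c', c' ∉ Set.range e → md' c' = .off)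
    (h3 : ∀ c, md c ≠ .off → ∀ (T : FP p k) (v : S.V.obj T), (P c).P v ↔ (P' (e c)).P v) :
    CMap S S P' md' P md where
  f z := ⟨z.x, fun c => z.w (e c),
    fun c i v hv => ⟨(h3 c (fun o => by rw [z.off _ i ((h1 c).trans o)] at hv; cases hv) _ v).2
      (z.col _ i v hv).1, (z.col _ i v hv).2⟩, fun c i v d j u hv hu => z.ok _ i v _ j u hv hu,
    fun c i o => z.on _ i ((h1 c).trans o), fun c i o => z.off _ i ((h1 c).trans o)⟩
  map _ _ := rfl
  res _ _ := rfl
  full z := fun ⟨c', hc, hz⟩ => by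
    by_cases k : c' ∈ Set.range e
    · obtain ⟨c, rfl⟩ := k
      exact ⟨c, (h1 c).symm.trans hc, hz⟩
    · rw [h2 c' k] at hc
      cases hc

end TogA

open TogA

theorem sedir : SEDIR p k := by
  classical
  intro S a κ _ P md h c
  refine ⟨⟨fm a h (upd md c (by nofun)) (upd md c (by nofun)) (upd md c (by nofun)),
    fm a h (upd md c (by nofun)) (upd md c (by nofun)) (upd md c (by nofun)), fun n x y e => ?_,
    fun β n y hy => ?_, fun n x => ?_, fun β n x hx e => ?_⟩⟩
  · exact Subtype.ext (funext fun T => funext fun z => congrFun (congrFun (congrArg Subtype.val e) T)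
      (cst z (fun c' i o => z.on c' i (upd md c (by nofun) c' o))
        fun c' i o => z.off c' i (upd md c (by nofun) c' o)))
  · refine ⟨⟨fun T z => if hz : ∀ i, (z.w c i).isSome then y.1 T (toOn z hz) else 0,
      fun T T' φ z => ?_, fun T z ⟨c', hc, hf⟩ => ?_⟩, fun T z => ?_,
      Subtype.ext (funext fun T => funext fun z => ?_)⟩
    · have k : (∀ i, ((z.map φ).w c i).isSome) ↔ ∀ i, (z.w c i).isSome :=
        forall_congr' fun i => by
          show ((z.w c i).map _).isSome ↔ _
          rw [Option.isSome_map]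
      by_cases hz : ∀ i, (z.w c i).isSome
      · simp only [dif_pos hz, dif_pos (k.2 hz)]
        exact y.2.1 T T' φ (toOn z hz)
      · simp only [dif_neg hz, dif_neg (mt k.1 hz), map_zero]
    · by_cases hz : ∀ i, (z.w c i).isSome
      · simp only [dif_pos hz]
        exact y.2.2 T _ ⟨c', upd md c (by nofun) c' hc, hf⟩
      · simp only [dif_neg hz]
    · by_cases hz : ∀ i, (z.w c i).isSome
      · simp only [dif_pos hz]
        exact hy T _
      · simp only [dif_neg hz]
        exact zero_mem _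
    · exact dif_pos fun i => z.on c i (update_self _ _ _)
  · exact Subtype.ext (funext fun T => funext fun z =>
      x.2.2 T _ ⟨c, update_self _ _ _, fun i => z.on c i (update_self _ _ _)⟩)
  · refine ⟨⟨fun T z => x.1 T (cst z (fun c' i o => z.on c' i (upd md c (by nofun) c' o))
        fun c' i o => z.off c' i (upd md c (by nofun) c' o)), fun T T' φ z => x.2.1 T T' φ (cst z _ _),
      fun T z ⟨c', hc, hf⟩ => ?_⟩, fun T z => hx T _, rfl⟩
    by_cases k : c' = c
    · subst k
      exact congrFun (congrFun (congrArg Subtype.val e) T) (toOn z hf)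
    · rw [update_of_ne k] at hc
      exact x.2.2 T _ ⟨c', (update_of_ne k _ _).trans hc, hf⟩

theorem tog (h2 : DOMG.{1, 1} p k) (h3 : SEG.{1} p k) (h4 : OPT p k) : TOG p k := by
  classical
  intro hp S a κ P h c m₁ m₂ m₃ e₁ e₂ e₃ e
  have k : ∀ (m : κ → Mode) (t : Mode), m c = t → (∀ c', c' ≠ c → m c' = m₂ c') →
      m = update m₂ c t := fun m t h1 h2 => funext fun c' => by
    by_cases o : c' = c
    · rw [o, update_self, h1]
    · rw [update_of_ne o, h2 c' o]
  obtain ⟨E⟩ := sedir S a κ P m₂ h c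
  obtain ⟨⟨D₁⟩, ⟨D₂⟩⟩ := h4 S a κ P m₂ h c
  rw [← k m₁ _ e₁ fun c' o => (e c' o).1, ← k m₃ _ e₃ fun c' o => (e c' o).2.symm] at E
  rw [← k m₂ _ e₂ fun _ _ => rfl] at D₁ D₂
  obtain ⟨⟨a1, a2, a3⟩, g⟩ := h3 hp _ _ _ E
  obtain ⟨-, -, b1, c1⟩ := h2 _ _ D₁
  obtain ⟨-, -, b2, c2⟩ := h2 _ _ D₂
  refine ⟨⟨fun x y => a3 x (b1 y), fun x y => b2 (a1 x y), fun x y => a2 (b1 x) y⟩, fun q hq => ?_⟩
  obtain ⟨g1, g2, g3⟩ := g q hq
  exact ⟨fun x y => g3 x (c1 q y), fun x y => c2 q (g1 x y), fun x y => g2 (c1 q x) y⟩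

theorem swap (ht : TOG p k) (h1 : AACG.{1} p k) : SWAP p k := by
  intro hp S a κ _ P h md c c' ne A₁ A₂ m hm
  have k1 := fun t : Mode => ht hp S a κ P h c' (update (update md c t) c' .red)
    (update (update md c t) c' .off) (update (update md c t) c' .on) (update_self _ _ _)
    (update_self _ _ _) (update_self _ _ _) fun d o => by simp only [update_of_ne o, and_self]
  have k2 := fun t : Mode => ht hp S a κ P h c (update (update md c .red) c' t)
    (update (update md c .off) c' t) (update (update md c .on) c' t)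
    (by rw [update_of_ne ne, update_self]) (by rw [update_of_ne ne, update_self])
    (by rw [update_of_ne ne, update_self]) fun d o => by
      by_cases o' : d = c'
      · simp only [o', update_self, and_self]
      · simp only [update_of_ne o, update_of_ne o', and_self]
  have G₁ := fun q => (h1 (S.fa a P _ h) q).2 A₁
  have G₂ := fun q => (h1 (S.fa a P _ h) q).2 A₂
  rcases hm with rfl | rfl
  · obtain ⟨⟨a1, a2, -⟩, g⟩ := k1 .on
    obtain ⟨⟨b1, b2, -⟩, g'⟩ := k2 .on
    exact ⟨⟨fun x => b2 A₁ (a1 A₂ x), fun x => a2 A₂ (b1 A₁ x)⟩, fun q hq =>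
      ⟨fun x => (g' q hq).2.1 (G₁ q) ((g q hq).1 (G₂ q) x),
        fun x => (g q hq).2.1 (G₂ q) ((g' q hq).1 (G₁ q) x)⟩⟩
  · obtain ⟨⟨-, a2, a3⟩, g⟩ := k1 .red
    obtain ⟨⟨-, b2, b3⟩, g'⟩ := k2 .red
    exact ⟨⟨fun x => b2 (a3 x A₁) A₂, fun x => a2 (b3 x A₂) A₁⟩, fun q hq =>
      ⟨fun x => (g' q hq).2.1 ((g q hq).2.2 x (G₁ q)) (G₂ q),
        fun x => (g q hq).2.1 ((g' q hq).2.2 x (G₂ q)) (G₁ q)⟩⟩

theorem reidx (hr : RETRACT p k) : REIDX p k := by
  intro S a κ κ' P P' md md' h h' e he h1 h2 h3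
  refine ⟨hr _ _ (a.cf P md h) (a.cf P' md' h') (up he h1 h2 h3).toMap (down h1 h2 h3).toMap
      (fun n T z => Sys.Conf.ext rfl (funext fun c => he.extend_apply z.w (fun _ _ => none) c))
      fun s _ n T z => Sys.Conf.ext rfl (ext_map he z.w (a.e s).f id),
    hr _ _ (a.cf P' md' h') (a.cf P md h) (down h1 h2 h3).toMap (up he h1 h2 h3).toMap
      (fun n T z => Sys.Conf.ext rfl (funext fun c' => ?_)) fun s _ n T z => rfl⟩
  show extend e (fun c => z.w (e c)) (fun _ _ => none) c' = z.w c'
  by_cases k : ∃ c, e c = c'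
  · obtain ⟨c, rfl⟩ := k
    rw [he.extend_apply]
  · rw [extend_apply' _ _ _ k]
    exact funext fun i => (z.off c' i (h2 c' k)).symm

end P261.SS
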