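import Vale.Agent.P261Z.S.Fa
import Vale.Agent.P261Z.S.Ch
import Vale.Agent.P261Z.S.Tog
import Vale.Agent.P261Z.S.Rw
import Vale.Agent.P261Z.S.Retr
import Vale.Agent.P261Z.S.Cut
import Vale.Agent.P261Z.S.Cpl
import Vale.Agent.P261Z.S.Rep0
import Vale.Agent.P261Z.S.Rep1
import Vale.Agent.P261Z.S.Rep2
import Vale.Agent.P261Z.S.Rep3
import Vale.Agent.P261Z.S.ToC1
import Vale.Agent.P261Z.C2.MC

/-!
# P261Z, block S: the statements without hypotheses, up to the locality statement
-/

noncomputable section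

namespace P261.SS.All

variable {p : ℕ} [Fact p.Prime] {k : Type} [Field k]

theorem tog : TOG p k := SS.tog domg seg opt

theorem swap : SWAP p k := SS.swap tog aacg

theorem reidx : REIDX p k := SS.reidx retract

theorem rep2 : REP2 p k := SS.rep2 rep1 cut rep0

theorem rep3 : REP3 p k := SS.rep3 rep0 cut

theorem key (h : LOCAL p k) : KEY p k := SS.key row' retr bceq h rep0 rep1 rep2

theorem secloc (h : LOCAL p k) : SECLOC p k := SS.secloc (key h) sec aacg

theorem stHZ (hk : (p : k) = 0) : StHZ p k := SS.stHZ hk sec aacg domg swap reidx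

theorem c1_tog (hk : (p : k) = 0) : C1.TOG p k := SS.c1_tog hk tog

theorem c1_secloc (hk : Pf p k) (h : LOCAL p k) : C1.SECLOC p k := SS.c1_secloc hk (secloc h)

theorem c1_rpl (hk : Pf p k) : C1.RPL p k := rpl hk rep0

theorem sh (hk : Pf p k) (h : LOCAL p k) : C2.SH p k :=
  ⟨hk, aacg, domg, seg, ch, retract, tog, reidx, cpl, cut, rep0, rep1, rep2, rep3, secloc h⟩

end P261.SS.All
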