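import Vale.Agent.P261Z.S.Sk
import Vale.Agent.P261Z.Cs.Htpy

/-!
# P261Z, block S: filtered complexes, retracts, two out of three
-/

noncomputable section

namespace P261.SS

open Cs

universe u v

variable {p : ℕ} [Fact p.Prime] {k : Type} [Field k]

namespace FaH

section basic

variable {C : Cos.{u} k} {D : Cos.{v} k} {n : ℕ}

theorem d_mem (P : Cs.Sub C) {x : C.X n} (hx : x ∈ P.S n) : C.d n x ∈ P.S (n + 1) :=
  P.coe_d n ⟨x, hx⟩ ▸ (P.cos.d n ⟨x, hx⟩).2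

theorem bd_spec {P : Cs.Sub C} {x : C.X n} (hx : x ∈ P.bd n) : x ∈ P.S n ∧ C.d n x = 0 := by
  cases n with
  | zero => rw [(Submodule.mem_bot k).1 hx]; exact ⟨zero_mem _, map_zero _⟩
  | succ n => obtain ⟨y, hy, rfl⟩ := hx; exact ⟨d_mem P hy, Cs.dd k C n y⟩

theorem map_bd (f : Hom C D) {P : Cs.Sub C} {Q : Cs.Sub D}
    (h : ∀ n, ∀ x ∈ P.S n, f.app n x ∈ Q.S n) {x : C.X n} (hx : x ∈ P.bd n) :
    f.app n x ∈ Q.bd n := by
  cases n with
  | zero => rw [(Submodule.mem_bot k).1 hx, map_zero]; exact zero_mem _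
  | succ n => obtain ⟨y, hy, rfl⟩ := hx; exact ⟨_, h n y hy, (f.map_d n y).symm⟩

theorem lift_bd (f : Hom C D) {P : Cs.Sub C} {Q : Cs.Sub D}
    (h : ∀ n, ∀ y ∈ Q.S n, ∃ x ∈ P.S n, f.app n x = y) {y : D.X n} (hy : y ∈ Q.bd n) :
    ∃ x ∈ P.bd n, f.app n x = y := by
  cases n with
  | zero => exact ⟨0, zero_mem _, (map_zero _).trans ((Submodule.mem_bot k).1 hy).symm⟩
  | succ n =>
    obtain ⟨y, hy, rfl⟩ := hy
    obtain ⟨x, hx, rfl⟩ := h n y hy
    exact ⟨_, ⟨x, hx, rfl⟩, f.map_d n x⟩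

end basic

omit [Fact p.Prime] in
theorem bd_mono (A : FA.{u} p k) {β γ : ℝ} (h : β ≤ γ) {n : ℕ} {x : A.C.X n}
    (hx : x ∈ (A.F β).bd n) : x ∈ (A.F γ).bd n :=
  map_bd (Hom.id A.C) (fun n _ hx => A.mono h n hx) hx

/-- the natural operators -/
def U (A : FA.{u} p k) (t : ℕ) (c : k) : Hom A.C A.C := A.act t - c • Hom.id A.C

/-- null with the slope `σ` -/
def NS (A : FA.{u} p k) (w : Hom A.C A.C) (n : ℕ) (σ : ℝ) : Prop :=
  ∀ β ε : ℝ, 0 ≤ β → 0 < ε → NullOn w (A.F β) (A.F (σ * β + ε)) n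

section ops

omit [Fact p.Prime]

variable {A : FA.{u} p k} {B : FA.{v} p k} {t n : ℕ} {c : k}

theorem U_mem (β : ℝ) (n : ℕ) (x : A.C.X n) (hx : x ∈ (A.F β).S n) :
    (U A t c).app n x ∈ (A.F β).S n :=
  sub_mem (A.act_F t β n x hx) (Submodule.smul_mem _ c hx)

theorem U_map (f : A.Map B) (ht : t % p = 1) (x : A.C.X n) :
    f.f.app n ((U A t c).app n x) = (U B t c).app n (f.f.app n x) := by
  simp only [U, Hom.sub_app, Hom.smul_app, Hom.id_app, map_sub, map_smul, f.act t ht]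

theorem U_id (x : A.C.X n) : (U A 1 0).app n x = x := by
  simp only [U, Hom.sub_app, Hom.smul_app, zero_smul, sub_zero, A.act_one]

theorem nul_iff {β γ : ℝ} : A.Nul n β γ ↔ NullOn (U A 1 0) (A.F β) (A.F γ) n := by
  simp only [FA.Nul, NullOn, U_id, Hom.id_app]

theorem aac_iff : A.AAc ↔ ∀ n, NS A (U A 1 0) n 1 := by
  simp only [FA.AAc, NS, nul_iff, one_mul]

theorem rat_iff : A.Rat n ↔ ∃ ρ, 1 ≤ ρ ∧ NS A (U A 1 0) n ρ := by
  simp only [FA.Rat, NS, nul_iff]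

theorem hc_iff {q : ℕ} : A.HC q n ↔ ∃ (ρ : ℝ) (m : ℕ), 0 ≤ ρ ∧ ∀ e s : ℕ, 1 ≤ e →
    s % p ^ e = 1 → NS A (U A (s ^ p ^ m) 1) n (1 + ρ / q ^ e) := by
  simp only [FA.HC, NS, NullOn, U, Hom.sub_app, Hom.smul_app, one_smul, add_mul, one_mul,
    div_mul_eq_mul_div]

theorem NS.mono {w : Hom A.C A.C} {σ τ : ℝ} (h : NS A w n σ) (h' : σ ≤ τ) : NS A w n τ :=
  fun β ε h1 h2 x hx hd => bd_mono A (by nlinarith) (h β ε h1 h2 x hx hd)

theorem dom (D : A.Dom B) (ht : t % p = 1) {β γ : ℝ} (h : β ≤ γ)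
    (H : NullOn (U B t c) (B.F β) (B.F γ) n) : NullOn (U A t c) (A.F β) (A.F γ) n := by
  intro x hx hd
  have h1 := map_bd D.r.f (D.r.mem γ) (H _ (D.mem β n x hx) (D.i.map_cocycle hd))
  have h2 := bd_mono A h (map_bd (U A t c) (U_mem β) (D.ri β n x hx hd))
  rw [U_map _ ht] at h1
  simpa only [map_sub, sub_sub_cancel] using sub_mem h1 h2

variable {K M Q : FA.{u} p k} (S : FA.SE K M Q) (ht : t % p = 1) {β γ δ : ℝ} (h : β ≤ γ)
  (h' : γ ≤ δ)

include S ht h h'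

theorem mid (H : NullOn (U Q t c) (Q.F β) (Q.F γ) n) (H' : NullOn (U K t c) (K.F γ) (K.F δ) n) :
    NullOn ((U M t c).comp (U M t c)) (M.F β) (M.F δ) n := by
  intro x hx hd
  obtain ⟨y, h1, h2⟩ := lift_bd S.r.f (S.surj γ) (H _ (S.r.mem β n x hx) (S.r.f.map_cocycle hd))
  obtain ⟨z, h3, h4⟩ := S.exact γ n _ (sub_mem (M.mono h n (U_mem (t := t) (c := c) β n x hx))
    (bd_spec h1).1) (by rw [map_sub, h2, U_map _ ht, sub_self])
  have h5 := map_bd S.i.f (S.i.mem δ) (H' z h3 (S.inj _ (by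
    rw [S.i.f.map_d, h4, map_sub, (bd_spec h1).2, Hom.map_cocycle _ hd, sub_zero, map_zero])))
  rw [U_map _ ht, h4, map_sub] at h5
  simpa only [sub_add_cancel, Hom.comp_app] using
    add_mem h5 (bd_mono M h' (map_bd (U M t c) (U_mem γ) h1))

omit h in
theorem sub (H : NullOn (U M t c) (M.F β) (M.F γ) n)
    (H' : NullOn (U Q t c) (Q.F γ) (Q.F δ) (n - 1)) :
    NullOn ((U K t c).comp (U K t c)) (K.F β) (K.F δ) n := by
  intro x hx hd
  have h0 := H _ (S.i.mem β n x hx) (S.i.f.map_cocycle hd)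
  rw [← U_map _ ht] at h0
  cases n with
  | zero =>
    rw [Hom.comp_app, S.inj _ (((Submodule.mem_bot k).1 h0).trans (map_zero _).symm), map_zero]
    exact zero_mem _
  | succ n =>
    obtain ⟨y, hy, e⟩ := h0
    obtain ⟨w, h1, h2⟩ := lift_bd (n := n) S.r.f (S.surj δ) (H' _ (S.r.mem γ n y hy) (by
      show Q.C.d n _ = 0
      rw [← S.r.f.map_d, e, S.zero]))
    obtain ⟨z, h3, h4⟩ := S.exact δ n _ (sub_mem (M.mono h' n (U_mem (t := t) (c := c) γ n y hy))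
      (bd_spec h1).1) (by rw [map_sub, h2, U_map _ ht]; exact sub_self _)
    refine ⟨z, h3, S.inj _ ?_⟩
    rw [S.i.f.map_d, h4, map_sub, (bd_spec h1).2, sub_zero, ← Hom.map_d, e, ← U_map _ ht]
    rfl

omit h' in
theorem quo (H : NullOn (U K t c) (K.F β) (K.F γ) (n + 1))
    (H' : NullOn (U M t c) (M.F γ) (M.F δ) n) :
    NullOn ((U Q t c).comp (U Q t c)) (Q.F β) (Q.F δ) n := by
  intro x hx hd
  obtain ⟨y, hy, rfl⟩ := S.surj β n x hx
  obtain ⟨z, h1, h2⟩ := S.exact β _ _ (d_mem _ hy) ((S.r.f.map_d n y).trans hd)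
  obtain ⟨w, h3, h4⟩ := H z h1 (S.inj _ (by rw [S.i.f.map_d, h2, Cs.dd, map_zero]))
  have h5 := map_bd S.r.f (S.r.mem δ) (H' _
    (sub_mem (M.mono h n (U_mem (t := t) (c := c) β n y hy)) (S.i.mem γ n w h3)) (by
      rw [map_sub, ← Hom.map_d, ← Hom.map_d, h4, U_map _ ht, h2, sub_self]))
  rwa [U_map _ ht, map_sub, S.zero, sub_zero, U_map _ ht] at h5

end ops

theorem one_mod : 1 % p = 1 := Nat.mod_eq_of_lt one_lt_p

theorem pow_mod {s e : ℕ} (he : 1 ≤ e) (h : s % p ^ e = 1) (N : ℕ) :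
    s ^ N % p ^ e = 1 ∧ s ^ N % p = 1 := by
  have h1 : s ^ N % p ^ e = 1 := by
    rw [Nat.pow_mod, h, one_pow, Nat.mod_eq_of_lt (Nat.one_lt_pow (by omega) one_lt_p)]
  exact ⟨h1, by rw [← Nat.mod_mod_of_dvd _ (dvd_pow_self p (by omega : e ≠ 0)), h1, one_mod]⟩

/-- transfer from one complex -/
theorem one {A : FA.{u} p k} {B : FA.{v} p k} (H : ∀ t c n σ, t % p = 1 → 1 ≤ σ →
    NS B (U B t c) n σ → NS A (U A t c) n σ) : (B.AAc → A.AAc) ∧ ∀ q, B.Good q → A.Good q := by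
  refine ⟨fun h => aac_iff.2 fun n => H _ _ _ _ one_mod le_rfl (aac_iff.1 h n), fun q h n => ?_⟩
  obtain ⟨ρ, h1, h2⟩ := rat_iff.1 (h n).1
  obtain ⟨ρ', m, h3, h4⟩ := hc_iff.1 (h n).2
  exact ⟨rat_iff.2 ⟨ρ, h1, H _ _ _ _ one_mod h1 h2⟩, hc_iff.2 ⟨ρ', m, h3, fun e s he hs =>
    H _ _ _ _ (pow_mod he hs _).2 (le_add_of_nonneg_right (by positivity)) (h4 e s he hs)⟩⟩

/-- the `p`-th power of the difference -/
theorem frob (hp : (p : k) = 0) {A : FA.{u} p k} {t n : ℕ} (ht : t % p = 1) {β γ : ℝ}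
    (H : NullOn ((U A t 1).comp (U A t 1)) (A.F β) (A.F γ) n) :
    NullOn (U A (t ^ p) 1) (A.F β) (A.F γ) n := by
  intro x hx hd
  have : CharP k p := (CharP.charP_iff_prime_eq_zero Fact.out).2 hp
  obtain ⟨a, ha⟩ : ∃ a : Module.End k (A.C.X n), a = (A.act t).app n := ⟨_, rfl⟩
  have h1 : ∀ j y, (A.act (t ^ j)).app n y = (a ^ j) y := fun j => by
    induction j with
    | zero => exact A.act_one n
    | succ j ih =>
      intro y
      rw [pow_succ', A.act_mul _ _ ht (pow_mod le_rfl (by rwa [pow_one]) j).2, ih, pow_succ', ← ha]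
      rfl
  have h2 : ∀ y, (U A t 1).app n y = (a - 1) y := fun y => by simp [U, ha]
  have h3 : (a - 1) ^ p = a ^ p - 1 := by
    simpa using congrArg (Polynomial.aeval a) (sub_pow_char (p := p) (Polynomial.X (R := k)) 1)
  have h4 : ∀ j : ℕ, ((a - 1) ^ (j + 2) : Module.End k _) x ∈ (A.F γ).bd n := fun j => by
    induction j with
    | zero => simpa only [Hom.comp_app, h2, zero_add, sq, Module.End.mul_apply] using H x hx hd
    | succ j ih =>
      rw [add_right_comm, pow_succ', Module.End.mul_apply, ← h2]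
      exact map_bd _ (U_mem γ) ih
  have h5 := h4 (p - 2)
  rw [Nat.sub_add_cancel (Fact.out : p.Prime).two_le, h3] at h5
  simpa only [U, Hom.sub_app, Hom.smul_app, Hom.id_app, one_smul, h1, LinearMap.sub_apply,
    Module.End.one_apply] using h5

/-- transfer from two complexes -/
theorem two (hp : (p : k) = 0) {A B C : FA.{u} p k} (f g : ℕ → ℕ) (H : ∀ t c n β γ δ,
    t % p = 1 → β ≤ γ → γ ≤ δ → NullOn (U A t c) (A.F β) (A.F γ) (f n) →
    NullOn (U B t c) (B.F γ) (B.F δ) (g n) →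
    NullOn ((U C t c).comp (U C t c)) (C.F β) (C.F δ) n) :
    (A.AAc → B.AAc → C.AAc) ∧ ∀ q, 1 ≤ q → A.Good q → B.Good q → C.Good q := by
  have h0 : ∀ t c n σ τ, t % p = 1 → 1 ≤ σ → 1 ≤ τ → NS A (U A t c) (f n) σ →
      NS B (U B t c) (g n) τ → NS C ((U C t c).comp (U C t c)) n (τ * σ) := by
    intro t c n σ τ ht hσ hτ h1 h2 β ε hβ hε
    have h3 : 0 < ε / (2 * τ) := by positivity
    have h4 : β ≤ σ * β + ε / (2 * τ) := by nlinarith
    have h5 : τ * (σ * β + ε / (2 * τ)) + ε / 2 = τ * σ * β + ε := by field_simp; ring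
    exact h5 ▸ H t c n β _ _ ht h4 (by nlinarith) (h1 β _ hβ h3)
      (h2 _ _ (hβ.trans h4) (half_pos hε))
  have h1 : ∀ n σ τ, 1 ≤ σ → 1 ≤ τ → NS A (U A 1 0) (f n) σ → NS B (U B 1 0) (g n) τ →
      NS C (U C 1 0) n (τ * σ) := fun n σ τ hσ hτ a b β ε hβ hε x hx hd => by
    simpa only [Hom.comp_app, U_id] using h0 _ _ n σ τ one_mod hσ hτ a b β ε hβ hε x hx hd
  refine ⟨fun a b => aac_iff.2 fun n => one_mul (1 : ℝ) ▸ h1 n 1 1 le_rfl le_rfl (aac_iff.1 a _)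
    (aac_iff.1 b _), fun q hq a b n => ⟨?_, ?_⟩⟩
  · obtain ⟨σ, a1, a2⟩ := rat_iff.1 (a (f n)).1
    obtain ⟨τ, b1, b2⟩ := rat_iff.1 (b (g n)).1
    exact rat_iff.2 ⟨_, one_le_mul_of_one_le_of_one_le b1 a1, h1 n σ τ a1 b1 a2 b2⟩
  · obtain ⟨σ, l, a1, a2⟩ := hc_iff.1 (a (f n)).2
    obtain ⟨τ, m, b1, b2⟩ := hc_iff.1 (b (g n)).2
    refine hc_iff.2 ⟨σ + τ + σ * τ, l + m + 1, by positivity, fun e s he hs => ?_⟩
    have a3 := a2 e _ he (pow_mod he hs (p ^ m)).1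
    have b3 := b2 e _ he (pow_mod he hs (p ^ l)).1
    rw [← pow_mul, ← pow_add] at a3 b3
    rw [add_comm m l] at a3
    have h2 := (pow_mod he hs (p ^ (l + m))).2
    have h3 : (1 : ℝ) ≤ q ^ e := one_le_pow₀ (by exact_mod_cast hq)
    have h4 : σ / q ^ e * (τ / q ^ e) ≤ σ * τ / q ^ e := by
      rw [mul_div_assoc]
      exact mul_le_mul_of_nonneg_right (div_le_self a1 h3) (by positivity)
    rw [pow_succ, pow_mul]
    exact fun β ε hβ hε => frob hp h2 ((h0 _ _ n _ _ h2 (le_add_of_nonneg_right (by positivity))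
      (le_add_of_nonneg_right (by positivity)) a3 b3).mono (by
        rw [add_div, add_div]; linarith) β ε hβ hε)

end FaH

open FaH

omit [Fact p.Prime] in
theorem aacg : AACG.{u} p k := fun A q => by
  refine ⟨fun h n β ε _ hε x hx hd => bd_mono A (by linarith) (h n β x hx hd), fun h n =>
    ⟨rat_iff.2 ⟨1, le_rfl, aac_iff.1 h n⟩, hc_iff.2 ⟨0, 0, le_rfl, fun e s _ _ β ε hβ hε x hx hd =>
      map_bd _ (U_mem _) ?_⟩⟩⟩
  rw [zero_div, add_zero, one_mul]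
  exact h n β ε hβ hε x hx hd

theorem domg : DOMG.{u, v} p k := fun A B D => by
  have h1 : ∀ n β β', β ≤ β' → B.Nul n β β' → A.Nul n β β' := fun n β β' h H =>
    nul_iff.2 (dom D one_mod h (nul_iff.1 H))
  exact ⟨h1, fun h n β => h1 n β β le_rfl (h n β),
    one fun t c n σ ht hσ H β ε hβ hε => dom D ht (by nlinarith) (H β ε hβ hε)⟩

theorem seg : SEG.{u} p k := fun hp K M Q S => by
  have h1 := two hp id id fun t c n β γ δ ht h h' => mid (c := c) (n := n) S ht h h'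
  have h2 := two hp id (· - 1) fun t c n β γ δ ht _ h' => sub (c := c) (n := n) S ht h'
  have h3 := two hp (· + 1) id fun t c n β γ δ ht h _ => quo (c := c) (n := n) S ht h
  exact ⟨⟨fun a b => h1.1 b a, h2.1, h3.1⟩,
    fun q hq => ⟨fun a b => h1.2 q hq b a, h2.2 q hq, h3.2 q hq⟩⟩

theorem aqg : AQG.{u, v} p k := fun A B f hf => by
  have h1 := one (A := A) (B := B) fun t c n σ ht hσ H β ε hβ hε x hx hd => by
    have h2 := H β _ hβ (half_pos hε) _ (f.mem β n x hx) (f.f.map_cocycle hd)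
    rw [← U_map _ ht] at h2
    simpa only [add_assoc, add_halves] using hf.inj n _ _ (by positivity) (half_pos hε) _
      (A.mono (by nlinarith) n (U_mem β n x hx)) (Hom.map_cocycle _ hd) h2
  have h2 := one (A := B) (B := A) fun t c n σ ht hσ H β ε hβ hε y hy hd => by
    have h3 : 0 < ε / (2 * σ) := by positivity
    obtain ⟨x, h4, h5, h6⟩ := hf.surj n β _ hβ h3 y hy hd
    have h7 := map_bd f.f (f.mem _) (H _ _ (by positivity) (half_pos hε) x h4 h5)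
    have h8 : σ * (β + ε / (2 * σ)) + ε / 2 = σ * β + ε := by field_simp; ring
    have h9 := bd_mono B (show _ ≤ σ * β + ε by nlinarith) (map_bd (U B t c) (U_mem _) h6)
    rw [h8, U_map _ ht] at h7
    simpa only [map_sub, sub_add_cancel] using add_mem h9 h7
  exact ⟨⟨h2.1, h1.1⟩, fun _ q _ => ⟨h2.2 q, h1.2 q⟩⟩

end P261.SS
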