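import Vale.Agent.P261Z.S.Sk

/-!
# P261Z, block S: the local criteria and the transfer from `A` to `Z`
-/

noncomputable section

namespace P261.SS

open Function

variable {p : ℕ} [Fact p.Prime] {k : Type} [Field k]

/-- a system is almost acyclic if it is so locally over all marked points of the base -/
theorem key0 (h1 : RETR p k) (h2 : BCEQ p k) (h3 : LOCAL p k) (r0 : REP0 p k) (r1 : REP1 p k)
    (r2 : REP2 p k) (hk : Pf p k) (S : Sys p k) {κ : Type} (P : κ → Col S.V) (md : κ → Mode)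
    (hS : S.Rp P)
    (h : ∀ (T : FP p k) (_ : (Gm p k).obj T), T.F.Exh → ∀ x : S.X.obj T,
      FLoc T fun T' f => S.LAc P md T' (S.X.map f x)) : S.AAc P md := by
  obtain ⟨ι, -, ⟨r⟩⟩ := (r1 hk).1 _ _ hS.base (r0 hk).2.2.1
  refine h1 S.X (S.cfo P md) ι r fun i => ?_
  refine h3 hk S.X (S.cfo P md) (r.U i) (r.u i).2 (r.u i).1 (r.exh i) (fun n => ?_) ?_
  · refine (h2 S κ P md _ (S.X.pt (r.u i).1)).2 n ?_
    exact (r2 hk (S.bc (S.X.pt (r.u i).1)) κ P
      ((r2 hk S κ P hS).2.2.1 _ _ ((r0 hk).2.1 _ (r.exh i)))).2.1 md n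
  · refine (h (r.U i) (r.u i).2 (r.exh i) (r.u i).1).mono fun T' f H T'' φ => ?_
    exact (h2 S κ P md _ _).1.1 (H T'' φ)

theorem key (h0 : ROW p k) (h1 : RETR p k) (h2 : BCEQ p k) (h3 : LOCAL p k) (r0 : REP0 p k)
    (r1 : REP1 p k) (r2 : REP2 p k) : KEY p k := by
  intro hk S κ P md D _ hS h
  refine h0 S κ P md D fun m => ?_
  exact key0 h1 h2 h3 r0 r1 r2 hk (S.mv P (Sys.keep md D) (m + 1)) P (Sys.drop md D)
    ((r2 hk S κ P hS).2.2.2 _ _) fun T w e z => h m T w e z

theorem Fits.map {S : Sys p k} {κ : Type} {P : κ → Col S.V} {md : κ → Mode} {n : ℕ}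
    {T T' : FP p k} {z : S.Conf P md n T} {c : κ} {u : S.V.obj T} (h : Fits z c u)
    (φ : T.Hom T') : Fits (z.map φ) c (S.V.map φ u) :=
  ⟨(P c).map φ h.1, S.ok1_map φ h.2.1, fun c' i u' hu' => by
    obtain ⟨v, hv, rfl⟩ := Option.map_eq_some_iff.1 hu'
    exact ⟨S.ok2_map φ (h.2.2 c' i v hv).1, S.ok2_map φ (h.2.2 c' i v hv).2⟩⟩

/-- a vertex which is compatible with everything -/
theorem lac_of_point (hs : SEC p k) (ha : AACG.{1} p k) (S : Sys p k) {κ : Type}
    (P : κ → Col S.V) (md : κ → Mode) (T : FP p k) (x : S.X.obj T) (c : κ) (hc : md c = .red)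
    (s : S.V.obj T) (h1 : (P c).P s) (h2 : S.ok1 x s) (h3 : S.ok2 s s)
    (h4 : ∀ (T' : FP p k) (g : T.Hom T') (c' : κ) (u : S.V.obj T'), md c' ≠ .off → (P c').P u →
      S.ok1 (S.X.map g x) u → S.ok2 (S.V.map g s) u ∧ S.ok2 u (S.V.map g s)) :
    S.LAc P md T x := by
  intro T' φ
  refine (ha _ 0).1 (hs (S.loc T' (S.X.map φ x)) κ P md c
    (fun n T'' z _ => S.V.map (FP.Hom.comp z.x φ) s) hc ?_ ?_ ?_ ?_ ?_)
  · intro n T₁ T₂ ψ z i
    exact S.V.map_comp ψ (FP.Hom.comp z.x φ) s
  · intro m n T₁ f z i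
    rfl
  · intro n T₁ z i
    refine ⟨(P c).map _ h1, ?_⟩
    have := S.ok1_map (FP.Hom.comp z.x φ) h2
    exact (congrArg (fun y => S.ok1 y _) (S.X.map_comp z.x φ x)).mp this
  · intro n T₁ z i j
    exact S.ok2_map _ h3
  · intro n T₁ z i c' j u hu
    refine h4 T₁ _ c' u (fun e => ?_) (z.col c' j u hu).1 ?_
    · rw [z.off c' j e] at hu
      cases hu
    · exact (congrArg (fun y => S.ok1 y u) (S.X.map_comp z.x φ x)).mpr (z.col c' j u hu).2

theorem secloc (hk : KEY p k) (hs : SEC p k) (ha : AACG.{1} p k) : SECLOC p k := by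
  intro h0 S κ P md R _ hS h
  have e1 : Sys.keep md (fun c => ¬R c) = Sys.drop md R := funext fun c => by
    by_cases hc : R c <;> simp [Sys.keep, Sys.drop, hc]
  have e2 : Sys.drop md (fun c => ¬R c) = Sys.keep md R := funext fun c => by
    by_cases hc : R c <;> simp [Sys.keep, Sys.drop, hc]
  have H := hk h0 S κ P md (fun c => ¬R c) hS
  rw [e1, e2] at H
  refine H fun m T w e z => (h m T w e z).mono ?_
  rintro T' f ⟨c, hc, hr, s, hf, hss, hu⟩
  refine lac_of_point hs ha (S.mv P (Sys.drop md R) (m + 1)) P (Sys.keep md R) T' (z.map f) c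
    (by simp [Sys.keep, hc, hr]) s hf.1 ⟨hf.2.1, hf.2.2⟩ hss fun T'' g c' u hm hP hok => ?_
  have hR : R c' := by
    by_contra hn
    exact hm (by simp [Sys.keep, hn])
  exact hu T'' g c' u hR (by simpa [Sys.keep, hR] using hm) ⟨hP, hok.1, hok.2⟩

section HZ

variable {E : Type} [Fintype E] [DecidableEq E] {h : ℕ}

/-- the underlying vertex of colour `A` -/
def fgt {K : Type} [CommRing K] (v : LV p E h K) : LV p E h K := ⟨v.a, false, 0, 0, 0, 0⟩

omit [Fintype E] [DecidableEq E] in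
theorem fgt_map {K L : Type} [CommRing K] [CommRing L] (f : K →+* L) (v : LV p E h K) :
    fgt (v.map f) = (fgt v).map f := by
  refine LV.ext rfl rfl ?_ ?_ ?_ rfl
  · exact (Matrix.map_zero _ (map_zero _)).symm
  · exact (Matrix.map_zero _ (map_zero _)).symm
  · funext U l i
    exact (map_zero f).symm

/-- lattices give points of colour `A` -/
theorem ctr_AZ (hs : SEC p k) (X : PF p k) {κ : Type} (P : κ → Col (LVF p k E h))
    (md : κ → Mode) (c c' : κ) (hc : md c = .red) (hc' : md c' = .on)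
    (hA : ∀ (T : FP p k) (v : LV p E h T.K), (P c').P v → (P c).P (T := T) (fgt v)) :
    ((LS p k E h X).cf P md).Ctr := by
  refine hs (LS p k E h X) κ P md c
    (fun n T z i => fgt ((z.w c' i).get (z.on c' i hc'))) hc ?_ ?_ ?_ ?_ ?_
  · intro n T T' φ z i
    exact (congrArg fgt (Option.get_map (f := (LVF p k E h).map φ) (o := z.w c' i))).trans
      (fgt_map φ.r _)
  · intro m n T f z i
    rfl
  · intro n T z i
    exact ⟨hA T _ (z.col c' i _ (Option.some_get _).symm).1, trivial⟩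
  · intro n T z i j
    exact ⟨(z.ok c' i _ c' j _ (Option.some_get _).symm (Option.some_get _).symm).a,
      fun h => Bool.noConfusion h⟩
  · intro n T z i c'' j u hu
    exact ⟨⟨(z.ok c' i _ c'' j _ (Option.some_get _).symm hu).a, fun h => Bool.noConfusion h⟩,
      ⟨(z.ok c'' j _ c' i _ hu (Option.some_get _).symm).a, fun _ h => Bool.noConfusion h⟩⟩

end HZ

theorem stHZ (hk : (p : k) = 0) (hs : SEC p k) (ha : AACG.{1} p k) (hd : DOMG.{1, 1} p k)
    (hw : SWAP p k) (hr : REIDX p k) : StHZ p k := by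
  intro hH hB E _ _ h B _ _ _ h1
  let X := PF.base p k B
  let P : Bool → SC p k E h := fun b => bif b then sZ p k E h else sA p k E h
  have hst : ∀ c, (lact p k E h X).Stab (P c).c := fun c => stab_of_sc (P c).sc
  have e1 : update (update (fun _ : Bool => Mode.off) false .on) true .red =
      fun b => bif b then Mode.red else Mode.on := funext fun b => by cases b <;> rfl
  have a1 : (LS p k E h X).AAc (fun c => (P c).c)
      (update (update (fun _ : Bool => Mode.off) false .red) true .on) :=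
    (ha _ 0).1 (ctr_AZ hs X (fun c => (P c).c) _ false true rfl rfl fun T v hv =>
      ⟨hv.1.isA, rfl, rfl, rfl, rfl, rfl⟩)
  have a2 : (LS p k E h X).AAc (fun c => (P c).c)
      (update (update (fun _ : Bool => Mode.off) false .on) true .red) := by
    rw [e1]
    exact hB E h B h1
  have hq : 1 ≤ p ^ h := Nat.one_le_pow _ _ p_pos
  have sw := (hw hk (LS p k E h X) (lact p k E h X) Bool (fun c => (P c).c) hst (fun _ => .off)
    false true (by decide) a1 a2 .red (.inr rfl)).2 (p ^ h) hq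
  obtain ⟨-, ⟨d1⟩⟩ := hr (LS p k E h X) (lact p k E h X) Unit Bool (fun _ => (sA p k E h).c)
    (fun c => (P c).c) (fun _ => .red)
    (update (update (fun _ : Bool => Mode.off) false .red) true .off)
    (fun _ => stab_of_sc (sA p k E h).sc) hst (fun _ => false) (fun _ _ _ => rfl) (fun _ => rfl)
    (fun c hc => by
      cases c
      · exact absurd ⟨(), rfl⟩ hc
      · rfl) fun _ _ _ _ => Iff.rfl
  obtain ⟨⟨d2⟩, -⟩ := hr (LS p k E h X) (lact p k E h X) Unit Bool (fun _ => (sZ p k E h).c)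
    (fun c => (P c).c) (fun _ => .red)
    (update (update (fun _ : Bool => Mode.off) false .off) true .red)
    (fun _ => stab_of_sc (sZ p k E h).sc) hst (fun _ => true) (fun _ _ _ => rfl) (fun _ => rfl)
    (fun c hc => by
      cases c
      · rfl
      · exact absurd ⟨(), rfl⟩ hc) fun _ _ _ _ => Iff.rfl
  exact (hd _ _ d2).2.2.2 _ (sw.1 ((hd _ _ d1).2.2.2 _ (hH E h B h1)))

end P261.SS
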