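import Vale.Agent.P261Z.W.Fil

/-!
# P261Z, block S: test objects, point functors, systems and configurations

* `FP p k`: perfect `k`-algebras with a closed filtration, `FP.Hom`: filtered algebra maps;
* `PF p k`: functors on test objects, `PF.Rep`: a universal point;
* `Sys p k`: a base functor, a vertex functor and the compatibility relations;
* `Sys.Conf S P md n T`: configurations on `n` points, one optional vertex for every direction.
-/

noncomputable section

namespace P261

/-- test objects -/
structure FP (p : ℕ) [Fact p.Prime] (k : Type) [Field k] : Type 1 where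
  /-- the ring -/
  K : Type
  [cr : CommRing K]
  [alg : Algebra k K]
  [pf : Pf p K]
  /-- the filtration -/
  F : Fil p K
  cl : F.Closed
  k0 : ∀ c : k, algebraMap k K c ∈ F.F 0

attribute [instance] FP.cr FP.alg FP.pf

variable {p : ℕ} [Fact p.Prime] {k : Type} [Field k]

namespace FP

/-- morphisms of test objects -/
@[ext] structure Hom (T T' : FP p k) where
  /-- the algebra map -/
  f : T.K →ₐ[k] T'.K
  mem : ∀ t x, x ∈ T.F.F t → f x ∈ T'.F.F t

/-- the identity -/
def Hom.id (T : FP p k) : T.Hom T := ⟨AlgHom.id k T.K, fun _ _ h => h⟩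

/-- composition -/
def Hom.comp {T T' T'' : FP p k} (g : T'.Hom T'') (f : T.Hom T') : T.Hom T'' :=
  ⟨g.f.comp f.f, fun t x h => g.mem t _ (f.mem t x h)⟩

/-- the underlying ring map -/
abbrev Hom.r {T T' : FP p k} (f : T.Hom T') : T.K →+* T'.K := f.f.toRingHom

theorem Hom.maps {T T' : FP p k} (f : T.Hom T') : Fil.Maps f.r T.F T'.F := f.mem

/-- Witt vectors of a test object -/
abbrev W (T : FP p k) : Type := WittVector p T.K

/-- the map on Witt vectors -/
abbrev Hom.w {T T' : FP p k} (f : T.Hom T') : T.W →+* T'.W := wm p f.r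

end FP

/-- point functors -/
structure PF (p : ℕ) [Fact p.Prime] (k : Type) [Field k] : Type 1 where
  /-- the points -/
  obj : FP p k → Type
  /-- functoriality -/
  map : ∀ {T T' : FP p k}, T.Hom T' → obj T → obj T'
  map_id : ∀ (T : FP p k) (x : obj T), map (FP.Hom.id T) x = x
  map_comp : ∀ {T T' T'' : FP p k} (g : T'.Hom T'') (f : T.Hom T') (x : obj T),
    map (g.comp f) x = map g (map f x)

namespace PF

/-- a universal point -/
structure Rep (X : PF p k) : Type 1 where
  /-- the universal test object -/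
  U : FP p k
  /-- the universal point -/
  u : X.obj U
  lift : ∀ (T : FP p k) (x : X.obj T), ∃! φ : U.Hom T, X.map φ u = x

/-- the functor represented by a test object -/
def yo (T₀ : FP p k) : PF p k where
  obj T := T₀.Hom T
  map g f := g.comp f
  map_id _ _ := rfl
  map_comp _ _ _ := rfl

/-- points of a `k`-algebra `B` with values in the step `0` -/
def base (p : ℕ) [Fact p.Prime] (k : Type) [Field k] (B : Type) [CommRing B] [Algebra k B] :
    PF p k where
  obj T := {b : B →ₐ[k] T.K // ∀ y, b y ∈ T.F.F 0}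
  map g b := ⟨g.f.comp b.1, fun y => g.mem _ _ (b.2 y)⟩
  map_id _ _ := rfl
  map_comp _ _ _ := rfl

end PF

/-- systems -/
structure Sys (p : ℕ) [Fact p.Prime] (k : Type) [Field k] : Type 1 where
  /-- the base -/
  X : PF p k
  /-- the vertices -/
  V : PF p k
  /-- compatibility of a vertex with the base point -/
  ok1 : ∀ {T : FP p k}, X.obj T → V.obj T → Prop
  /-- compatibility of two vertices -/
  ok2 : ∀ {T : FP p k}, V.obj T → V.obj T → Prop
  ok1_map : ∀ {T T' : FP p k} (φ : T.Hom T') {x : X.obj T} {v : V.obj T},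
    ok1 x v → ok1 (X.map φ x) (V.map φ v)
  ok2_map : ∀ {T T' : FP p k} (φ : T.Hom T') {v v' : V.obj T},
    ok2 v v' → ok2 (V.map φ v) (V.map φ v')

/-- colours: subfunctors of a functor of vertices -/
structure Col (V : PF p k) : Type 1 where
  /-- the condition -/
  P : ∀ {T : FP p k}, V.obj T → Prop
  map : ∀ {T T' : FP p k} (φ : T.Hom T') {v : V.obj T}, P v → P (V.map φ v)

/-- the modes of a direction -/
inductive Mode
  | on
  | off
  | opt
  | red
  deriving DecidableEq

namespace Sys

variable (S : Sys p k) {κ : Type} (P : κ → Col S.V) (md : κ → Mode)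

/-- configurations on `n` points -/
@[ext] structure Conf (n : ℕ) (T : FP p k) where
  /-- the base point -/
  x : S.X.obj T
  /-- the vertices -/
  w : κ → Fin n → Option (S.V.obj T)
  col : ∀ c i v, w c i = some v → (P c).P v ∧ S.ok1 x v
  ok : ∀ c i v c' i' v', w c i = some v → w c' i' = some v' → S.ok2 v v'
  on : ∀ c i, md c = .on → (w c i).isSome
  off : ∀ c i, md c = .off → w c i = none

variable {S P md}

/-- change of the test object -/
def Conf.map {n : ℕ} {T T' : FP p k} (φ : T.Hom T') (z : S.Conf P md n T) : S.Conf P md n T' where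
  x := S.X.map φ z.x
  w c i := (z.w c i).map (S.V.map φ)
  col c i v h := by
    obtain ⟨u, hu, rfl⟩ := Option.map_eq_some_iff.1 h
    exact ⟨(P c).map φ (z.col c i u hu).1, S.ok1_map φ (z.col c i u hu).2⟩
  ok c i v c' i' v' h h' := by
    obtain ⟨u, hu, rfl⟩ := Option.map_eq_some_iff.1 h
    obtain ⟨u', hu', rfl⟩ := Option.map_eq_some_iff.1 h'
    exact S.ok2_map φ (z.ok c i u c' i' u' hu hu')
  on c i h := by
    rw [Option.isSome_map]
    exact z.on c i h
  off c i h := by rw [z.off c i h, Option.map_none]

/-- restriction along a map of index sets -/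
def Conf.res {m n : ℕ} {T : FP p k} (f : Fin m → Fin n) (z : S.Conf P md n T) :
    S.Conf P md m T where
  x := z.x
  w c i := z.w c (f i)
  col c i := z.col c (f i)
  ok c i v c' i' := z.ok c (f i) v c' (f i')
  on c i := z.on c (f i)
  off c i := z.off c (f i)

theorem Conf.res_map {m n : ℕ} {T T' : FP p k} (φ : T.Hom T') (f : Fin m → Fin n)
    (z : S.Conf P md n T) : (z.map φ).res f = (z.res f).map φ := rfl

/-- some reduced direction is completely filled -/
def Conf.Full {n : ℕ} {T : FP p k} (z : S.Conf P md n T) : Prop :=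
  ∃ c, md c = .red ∧ ∀ i, (z.w c i).isSome

theorem Conf.Full.res {m n : ℕ} {T : FP p k} {z : S.Conf P md n T} (h : z.Full)
    (f : Fin m → Fin n) : (z.res f).Full :=
  let ⟨c, hc, h⟩ := h
  ⟨c, hc, fun i => h (f i)⟩

variable (S P md)

/-- the configurations as a point functor -/
def conf (n : ℕ) : PF p k where
  obj T := S.Conf P md n T
  map φ z := z.map φ
  map_id T z := by
    refine Conf.ext (S.X.map_id T _) (funext fun c => funext fun i => ?_)
    show (z.w c i).map _ = _
    rw [show S.V.map (FP.Hom.id T) = id from funext (S.V.map_id T), Option.map_id, id]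
  map_comp g f z := by
    refine Conf.ext (S.X.map_comp g f _) (funext fun c => funext fun i => ?_)
    show (z.w c i).map _ = ((z.w c i).map _).map _
    rw [Option.map_map]
    exact congrArg (fun h => Option.map h (z.w c i)) (funext (S.V.map_comp g f))

/-- natural functions on the configurations which vanish on the full ones -/
def Fn (n : ℕ) : Submodule k (∀ T : FP p k, S.Conf P md n T → T.K) where
  carrier := {g | (∀ (T T' : FP p k) (φ : T.Hom T') (z : S.Conf P md n T),
    g T' (z.map φ) = φ.f (g T z)) ∧ ∀ T (z : S.Conf P md n T), z.Full → g T z = 0}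
  add_mem' := fun {a b} ha hb => ⟨fun T T' φ z => by
    simp only [Pi.add_apply, map_add, ha.1 T T' φ z, hb.1 T T' φ z], fun T z hz => by
    simp only [Pi.add_apply, ha.2 T z hz, hb.2 T z hz, add_zero]⟩
  zero_mem' := ⟨fun T T' φ z => by simp only [Pi.zero_apply, map_zero], fun _ _ _ => rfl⟩
  smul_mem' := fun c a ha => ⟨fun T T' φ z => by
    simp only [Pi.smul_apply, map_smul, ha.1 T T' φ z], fun T z hz => by
    simp only [Pi.smul_apply, ha.2 T z hz, smul_zero]⟩

/-- pull back along a map of index sets -/
def pull {m n : ℕ} (f : Fin m → Fin n) : S.Fn P md m →ₗ[k] S.Fn P md n where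
  toFun g := ⟨fun T z => g.1 T (z.res f), fun T T' φ z => g.2.1 T T' φ (z.res f),
    fun T z hz => g.2.2 T _ (hz.res f)⟩
  map_add' _ _ := rfl
  map_smul' _ _ := rfl

/-- the functions with values in the step `β` -/
def FnF (β : ℝ) (n : ℕ) : Submodule k (S.Fn P md n) where
  carrier := {g | ∀ T z, g.1 T z ∈ T.F.F β}
  add_mem' := fun {a b} ha hb T z => (T.F.F β).add_mem (ha T z) (hb T z)
  zero_mem' := fun T _ => (T.F.F β).zero_mem
  smul_mem' := fun c a ha T z => by
    show c • a.1 T z ∈ _
    rw [Algebra.smul_def]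
    exact T.F.mul_le (T.k0 c) (ha T z) (zero_add β).le

end Sys

/-- maps of configurations -/
structure CMap (S S' : Sys p k) {κ κ' : Type} (P : κ → Col S.V) (md : κ → Mode)
    (P' : κ' → Col S'.V) (md' : κ' → Mode) : Type 1 where
  /-- the map -/
  f : ∀ {n : ℕ} {T : FP p k}, S.Conf P md n T → S'.Conf P' md' n T
  map : ∀ {n : ℕ} {T T' : FP p k} (φ : T.Hom T') (z : S.Conf P md n T),
    f (z.map φ) = (f z).map φ
  res : ∀ {m n : ℕ} {T : FP p k} (g : Fin m → Fin n) (z : S.Conf P md n T),
    f (z.res g) = (f z).res g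
  full : ∀ {n : ℕ} {T : FP p k} (z : S.Conf P md n T), z.Full → (f z).Full

/-- pull back of functions -/
def CMap.pull {S S' : Sys p k} {κ κ' : Type} {P : κ → Col S.V} {md : κ → Mode}
    {P' : κ' → Col S'.V} {md' : κ' → Mode} (F : CMap S S' P md P' md') (n : ℕ) :
    S'.Fn P' md' n →ₗ[k] S.Fn P md n where
  toFun g := ⟨fun T z => g.1 T (F.f z), fun T T' φ z => by
    show g.1 T' (F.f (z.map φ)) = _
    rw [F.map]
    exact g.2.1 T T' φ _, fun T z hz => g.2.2 T _ (F.full z hz)⟩
  map_add' _ _ := rfl
  map_smul' _ _ := rfl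

/-- endomorphisms of a system which preserve a family of colours -/
structure Sys.Endo (S : Sys p k) : Type 1 where
  /-- the map on vertices -/
  f : ∀ {T : FP p k}, S.V.obj T → S.V.obj T
  map : ∀ {T T' : FP p k} (φ : T.Hom T') (v : S.V.obj T), f (S.V.map φ v) = S.V.map φ (f v)
  ok1 : ∀ {T : FP p k} {x : S.X.obj T} {v : S.V.obj T}, S.ok1 x v → S.ok1 x (f v)
  ok2 : ∀ {T : FP p k} {v v' : S.V.obj T}, S.ok2 v v' → S.ok2 (f v) (f v')

/-- the induced map of configurations -/
def Sys.Endo.cmap {S : Sys p k} (e : S.Endo) {κ : Type} (P : κ → Col S.V) (md : κ → Mode)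
    (h : ∀ c (T : FP p k) (v : S.V.obj T), (P c).P v → (P c).P (e.f v)) : CMap S S P md P md where
  f z :=
    { x := z.x
      w := fun c i => (z.w c i).map e.f
      col := fun c i v hv => by
        obtain ⟨u, hu, rfl⟩ := Option.map_eq_some_iff.1 hv
        exact ⟨h c _ u (z.col c i u hu).1, e.ok1 (z.col c i u hu).2⟩
      ok := fun c i v c' i' v' hv hv' => by
        obtain ⟨u, hu, rfl⟩ := Option.map_eq_some_iff.1 hv
        obtain ⟨u', hu', rfl⟩ := Option.map_eq_some_iff.1 hv'
        exact e.ok2 (z.ok c i u c' i' u' hu hu')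
      on := fun c i hc => by
        rw [Option.isSome_map]
        exact z.on c i hc
      off := fun c i hc => by rw [z.off c i hc, Option.map_none] }
  map φ z := by
    refine Sys.Conf.ext rfl (funext fun c => funext fun i => ?_)
    show ((z.w c i).map _).map _ = ((z.w c i).map _).map _
    rw [Option.map_map, Option.map_map]
    exact congrArg (fun h => Option.map h (z.w c i)) (funext (e.map φ))
  res _ _ := rfl
  full z := fun ⟨c, hc, hz⟩ => ⟨c, hc, fun i => by
    show ((z.w c i).map _).isSome
    rw [Option.isSome_map]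
    exact hz i⟩

end P261
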